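import Vale.Agent.P004F.Alg.Kol

/-! One cyclic defect with a torsion element of the same order. -/

namespace Vale.Agent.P004F.Alg
open Submodule Set Matrix Function Module IsLocalRing

variable {O X J : Type} [CommRing O] [IsDomain O] [IsDiscreteValuationRing O] [AddCommGroup X]
  [Module O X] [Fintype J] [DecidableEq J] {t η x : X} {f s : J → X} {D b ϖ : O}

/-- a cyclic cokernel and a torsion coordinate -/
structure Cy (t : X) (f s : J → X) (b : O) (η x : X) : Prop where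
  top : NN O t f s ⊔ span O {η} = ⊤
  mul : b • η ∈ NN O t f s
  mem : x ∈ NN O t f s
  tor : ∃ a : O, a ≠ 0 ∧ a • x = 0
  ord : ∀ a : O, a • x ∈ span O {t} → b ∣ a

omit [IsDomain O] [IsDiscreteValuationRing O] [DecidableEq J] in
theorem mem_NN {z : X} : z ∈ NN O t f s ↔
    ∃ (c : O) (a a' : J → O), z = c • t + ∑ j, (a j • f j + a' j • s j) := by
  simp only [NN, mem_span_insert, span_union, mem_sup, mem_span_range_iff_exists_fun,
    Finset.sum_add_distrib]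
  constructor
  · rintro ⟨c, _, ⟨_, ⟨a, rfl⟩, _, ⟨a', rfl⟩, rfl⟩, rfl⟩; exact ⟨c, a, a', rfl⟩
  · rintro ⟨c, a, a', rfl⟩; exact ⟨c, _, ⟨_, ⟨a, rfl⟩, _, ⟨a', rfl⟩, rfl⟩, rfl⟩

omit [IsDomain O] [IsDiscreteValuationRing O] [DecidableEq J] [Fintype J] in
theorem Cy.dec (h : Cy t f s b η x) (z : X) : ∃ n ∈ NN O t f s, ∃ c : O, z = n + c • η := by
  obtain ⟨n, hn, _, h1, rfl⟩ := mem_sup.1 (h.top ▸ mem_top : z ∈ _)
  obtain ⟨c, rfl⟩ := mem_span_singleton.1 h1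
  exact ⟨n, hn, c, rfl⟩

omit [IsDomain O] [IsDiscreteValuationRing O] [DecidableEq J] [Fintype J] in
theorem Cy.nu (h : Cy t f s b η x) : Dt (X ⧸ NN O t f s) b := by
  refine ⟨Unit, inferInstance, inferInstance, fun _ => mkQ _ η, of fun _ _ => b,
    eq_top_iff.2 fun z _ => ?_, fun _ => by simpa [← Quotient.mk_smul] using h.mul, by simp⟩
  obtain ⟨z, rfl⟩ := mkQ_surjective _ z
  obtain ⟨n, hn, c, rfl⟩ := h.dec z
  rw [map_add, show mkQ _ n = 0 from (Quotient.mk_eq_zero _).2 hn, zero_add, map_smul]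
  exact smul_mem _ _ (subset_span ⟨(), rfl⟩)

omit [IsDomain O] [IsDiscreteValuationRing O] [DecidableEq J] [Fintype J] in
theorem dvd_NN {g : X →ₗ[O] O} {a : O} (h1 : a ∣ g t) (h2 : ∀ j, a ∣ g (f j)) (h3 : ∀ j, a ∣ g (s j))
    {z : X} (hz : z ∈ NN O t f s) : a ∣ g z :=
  Ideal.mem_span_singleton.1 (NN_le (N := Submodule.comap g (Ideal.span {a})) (Ideal.mem_span_singleton.2 h1)
    (fun j => Ideal.mem_span_singleton.2 (h2 j)) (fun j => Ideal.mem_span_singleton.2 (h3 j)) hz)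

omit [IsDiscreteValuationRing O] in
theorem ex_div (hb : b ≠ 0) {g : X →ₗ[O] O} (h : ∀ z, b ∣ g z) : ∃ ρ : X →ₗ[O] O, g = b • ρ := by
  choose ρ hρ using h
  exact ⟨⟨⟨ρ, fun x y => mul_left_cancel₀ hb (by rw [mul_add, ← hρ, ← hρ, ← hρ, map_add])⟩,
    fun a x => mul_left_cancel₀ hb (by simp [← hρ, mul_left_comm b])⟩, LinearMap.ext hρ⟩

omit [IsDomain O] [IsDiscreteValuationRing O] [DecidableEq J] in
theorem Iso.om (h : Iso O t f s) {g : X →ₗ[O] O} (hg : g t = 0) :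
    ∑ j, (g (s j) • f j + g (f j) • s j) ∈ span O {t} := by
  have := h _ ((LinearMap.lsmul O _).compl₁₂ g (span O {t}).mkQ) (by ext; simp [hg])
    (by simp [(Quotient.mk_eq_zero _).2 (mem_span_singleton_self t)])
  rw [← Quotient.mk_eq_zero, ← mkQ_apply, map_sum, ← this]
  simp [add_comm]

/-- the saturated lattice is its own orthogonal -/
theorem Ok0.orth (h : Ok0 t f s D b) (hD : D ≠ 0) (hb : b ≠ 0) {u v : J → O}
    (H : ∀ g : X →ₗ[O] O, g t = 0 → ∑ j, (v j * g (f j) + u j * g (s j)) = 0) :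
    ∃ g : X →ₗ[O] O, g t = 0 ∧ (∀ j, g (f j) = b * u j) ∧ ∀ j, g (s j) = b * v j := by
  obtain ⟨f', s', h1, h2, -, -⟩ := h.lat hD hb
  obtain ⟨D', e1, e2⟩ := h.pr
  have hd : ∀ (d : O) (w : J → O), (∀ j, d ∣ f' j ⬝ᵥ w) → (∀ j, d ∣ s' j ⬝ᵥ w) → ∀ i, d ∣ w i :=
    fun d w a1 a2 i => by
      have : (⊤ : Submodule O (J → O)) ≤ Submodule.comap (M₂ := O) ((dotProductBilin O O).flip w)
          (Ideal.span {d}) := by
        rw [← h1, span_le]
        rintro _ (⟨j, rfl⟩ | ⟨j, rfl⟩)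
        exacts [Ideal.mem_span_singleton.2 (a1 j), Ideal.mem_span_singleton.2 (a2 j)]
      simpa [Ideal.mem_span_singleton] using this (mem_top (x := Pi.single i 1))
  have d0 : (of s').det ≠ 0 := fun e => by
    obtain ⟨w, hw, e⟩ := exists_mulVec_eq_zero_iff.2 e
    obtain ⟨g, a1, a2, a3⟩ := h2 w
    have a4 : ∀ j, s' j ⬝ᵥ w = 0 := congrFun e
    refine hw (funext fun i => zero_dvd_iff.1 (hd 0 w (fun j => ?_) (by simp [a4]) i))
    have : span O (insert t (range s)) ≤ LinearMap.ker g := span_le.2 <| by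
      rintro _ (rfl | ⟨j, rfl⟩)
      exacts [a1, by simp [a3, a4]]
    have := this ((Quotient.mk_eq_zero _).1 (e2.dt.smul_eq (mkQ _ (f j))))
    simpa [a2, hb, e1.ne_zero_iff.2 hD] using this
  obtain ⟨g, a1, a2, a3⟩ := h2 ((of s').adjugate *ᵥ v)
  have a4 : ∀ j, s' j ⬝ᵥ ((of s').adjugate *ᵥ v) = (of s').det * v j := fun j => by
    have := congrFun (mulVec_mulVec v (of s') (of s').adjugate) j
    rw [mul_adjugate] at this
    exact this.trans (by simp [smul_mulVec])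
  have a5 : ∀ j, f' j ⬝ᵥ ((of s').adjugate *ᵥ v) = (of s').det * u j := fun j => by
    refine sub_eq_zero.1 (congrFun (eq_zero_of_vecMul_eq_zero d0 (v := fun j =>
      f' j ⬝ᵥ ((of s').adjugate *ᵥ v) - (of s').det * u j) (funext fun i => ?_)) j)
    obtain ⟨g', k1, k2, k3⟩ := h2 (Pi.single i 1)
    have q1 := h.iso.pt a1 k1
    have q2 := H g' k1
    simp only [a2, a3, a4, k2, k3, dotProduct_single, mul_one] at q1 q2
    refine mul_left_cancel₀ (pow_ne_zero 2 hb) ?_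
    generalize (of s').adjugate *ᵥ v = w at q1 ⊢
    have q3 := congrArg (b * (of s').det * ·) q2
    rw [Pi.zero_apply, mul_zero, ← sub_eq_zero.2 (q1.trans (q3.trans (mul_zero _)).symm), vecMul,
      dotProduct, Finset.mul_sum, Finset.mul_sum, ← Finset.sum_sub_distrib]
    exact Finset.sum_congr rfl fun j _ => by simp only [of_apply]; ring
  choose w hw using hd _ _ (fun j => ⟨_, a5 j⟩) fun j => ⟨_, a4 j⟩
  obtain ⟨g, k1, k2, k3⟩ := h2 w
  have e : ∀ z : J → O, z ⬝ᵥ ((of s').adjugate *ᵥ v) = (of s').det * (z ⬝ᵥ w) := fun z => by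
    rw [funext hw]; simp [dotProduct, Finset.mul_sum, mul_left_comm]
  exact ⟨g, k1, fun j => by rw [k2, mul_left_cancel₀ d0 ((e _).symm.trans (a5 j))],
    fun j => by rw [k3, mul_left_cancel₀ d0 ((e _).symm.trans (a4 j))]⟩

omit [IsDiscreteValuationRing O] in
theorem tor_zero {g : X →ₗ[O] O} (hg : g t = 0) {a : O} (ha : a ≠ 0) {z : X}
    (h : a • z ∈ span O {t}) : g z = 0 := by
  obtain ⟨c, hc⟩ := mem_span_singleton.1 h
  simpa [hg, ha] using congrArg g hc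

/-- the point attached to a torsion coordinate -/
theorem Ok0.tp (h : Ok0 t f s D b) (hD : D ≠ 0) (hb : b ≠ 0) {z : X} (hz : z ∈ NN O t f s) {a : O}
    (ha : a ≠ 0) (h1 : a • z ∈ span O {t}) : ∃ (g : X →ₗ[O] O) (u v : J → O), g t = 0 ∧
      (∀ j, g (f j) = b * u j) ∧ (∀ j, g (s j) = b * v j) ∧
      z - ∑ j, (v j • f j + u j • s j) ∈ span O {t} := by
  obtain ⟨c, v, u, rfl⟩ := mem_NN.1 hz
  obtain ⟨g, k1, k2, k3⟩ := h.orth hD hb (u := u) (v := v) fun g hg => by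
    simpa [hg] using tor_zero hg ha h1
  exact ⟨g, u, v, k1, k2, k3, by simpa using smul_mem _ _ (mem_span_singleton_self t)⟩

omit [IsDiscreteValuationRing O] [Fintype J] [DecidableEq J] in
theorem Cy.red (h : Cy t f s b η x) (hb : b ≠ 0) {g g' : X →ₗ[O] O} {u v u' v' : J → O} (a1 : g t = 0)
    (a2 : ∀ j, g (f j) = b * u j) (a3 : ∀ j, g (s j) = b * v j) (k1 : g' t = 0)
    (k2 : ∀ j, g' (f j) = b * u' j) (k3 : ∀ j, g' (s j) = b * v' j) (hu : IsUnit (g η)) :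
    ∃ (a : O) (ρ : X →ₗ[O] O), g' η = a * g η ∧ ρ t = 0 ∧ (∀ j, u' j = a * u j + ρ (f j)) ∧
      ∀ j, v' j = a * v j + ρ (s j) := by
  obtain ⟨a, ha⟩ := hu.dvd (a := g' η)
  obtain ⟨ρ, hρ⟩ := ex_div hb (g := g' - a • g) fun z => by
    obtain ⟨n, hn, c, rfl⟩ := h.dec z
    rw [map_add, map_smul]
    refine dvd_add (dvd_NN (by simp [a1, k1]) (fun j => ?_) (fun j => ?_) hn) (by simp [ha, mul_comm])
    · exact dvd_sub ⟨_, k2 j⟩ (Dvd.dvd.mul_left ⟨_, a2 j⟩ a)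
    · exact dvd_sub ⟨_, k3 j⟩ (Dvd.dvd.mul_left ⟨_, a3 j⟩ a)
  have e : ∀ z, g' z - a * g z = b * ρ z := LinearMap.congr_fun hρ
  exact ⟨a, ρ, by rw [ha, mul_comm], by simpa [a1, k1, hb] using e t,
    fun j => mul_left_cancel₀ hb (by linear_combination e (f j) - k2 j + a * a2 j),
    fun j => mul_left_cancel₀ hb (by linear_combination e (s j) - k3 j + a * a3 j)⟩

variable (h : Ok0 t f s D b) (hD : D ≠ 0) (hb : b ≠ 0) (hϖ : Irreducible ϖ) (hd : ϖ ∣ b)
  (c : Cy t f s b η x)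

omit [DecidableEq J] [Fintype J] in
theorem unit_of (hϖ : Irreducible ϖ) {a : O} : IsUnit a ↔ ¬ ϖ ∣ a := by
  rw [← notMem_maximalIdeal, hϖ.maximalIdeal_eq, Ideal.mem_span_singleton]

include h hD hb hϖ hd c

theorem Cy.gen : ∃ (g : X →ₗ[O] O) (u v : J → O), g t = 0 ∧
      (∀ j, g (f j) = b * u j) ∧ (∀ j, g (s j) = b * v j) ∧
      x - ∑ j, (v j • f j + u j • s j) ∈ span O {t} ∧ IsUnit (g η) := by
  obtain ⟨a, ha, h1⟩ := c.tor
  obtain ⟨g, u, v, a1, a2, a3, a4⟩ := h.tp hD hb c.mem ha (h1 ▸ zero_mem _)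
  refine ⟨g, u, v, a1, a2, a3, a4, (unit_of hϖ).2 fun e => ?_⟩
  obtain ⟨b', rfl⟩ := hd
  obtain ⟨ρ, rfl⟩ := ex_div hϖ.ne_zero (g := g) fun z => by
    obtain ⟨n, hn, c, rfl⟩ := c.dec z
    rw [map_add, map_smul]
    exact dvd_add (dvd_NN (by simp [a1]) (by simp [a2, mul_assoc]) (by simp [a3, mul_assoc]) hn)
      (e.mul_left _)
  simp only [LinearMap.smul_apply, smul_eq_mul, mul_assoc, mul_eq_zero, hϖ.ne_zero, false_or,
    mul_right_inj' hϖ.ne_zero] at a1 a2 a3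
  have := c.ord b' (by
    have := add_mem (smul_mem _ b' a4) (h.iso.om a1)
    simpa [a2, a3, smul_sub, Finset.smul_sum, mul_smul] using this)
  exact hϖ.not_isUnit (isUnit_of_dvd_one ((mul_dvd_mul_iff_right (right_ne_zero_of_mul hb)).1
    (by simpa using this)))

theorem Cy.tors {z : X} {a : O} (ha : a ≠ 0) (hz : a • z ∈ span O {t}) :
    ∃ e : O, z - e • x ∈ span O {t} := by
  obtain ⟨g, u, v, a1, a2, a3, a4, a5⟩ := c.gen h hD hb hϖ hd
  have hn : z ∈ NN O t f s := by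
    obtain ⟨n, hn, e, rfl⟩ := c.dec z
    have := tor_zero a1 ha hz
    rw [map_add, map_smul, smul_eq_mul, add_eq_zero_iff_eq_neg] at this
    obtain ⟨e, rfl⟩ : b ∣ e := a5.dvd_mul_right.1 (dvd_neg.1
      (this ▸ dvd_NN (by simp [a1]) (by simp [a2]) (by simp [a3]) hn))
    exact add_mem hn (by rw [mul_comm, mul_smul]; exact smul_mem _ _ c.mul)
  obtain ⟨g', u', v', k1, k2, k3, k4⟩ := h.tp hD hb hn ha hz
  obtain ⟨e, ρ, -, r1, r2, r3⟩ := c.red hb a1 a2 a3 k1 k2 k3 a5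
  refine ⟨e, ?_⟩
  convert sub_mem (add_mem k4 (h.iso.om r1)) (smul_mem _ e a4) using 1
  simp only [r2, r3, smul_sub, Finset.smul_sum, add_smul, mul_smul, smul_add, Finset.sum_add_distrib]
  abel

theorem Cy.one {κ : X →ₗ[O] O} (h0 : κ t ≠ 0) : ∃ r : X →ₗ[O] O, r t = 1 := by
  have := h.fin
  obtain ⟨a, ha, h1⟩ := c.tor
  let e := Module.Free.chooseBasis O (X ⧸ torsion O X)
  by_cases H : ∃ i, IsUnit (e.coord i (mkQ _ t))
  · obtain ⟨i, w, hw⟩ := H
    exact ⟨(w⁻¹ : Oˣ).1 • e.coord i ∘ₗ mkQ _, by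
      rw [LinearMap.smul_apply, LinearMap.comp_apply, ← hw]; simp⟩
  simp only [unit_of hϖ, not_exists, not_not] at H
  choose w hw using H
  obtain ⟨z, hz⟩ := mkQ_surjective _ (e.equivFun.symm w)
  obtain ⟨a', ha'⟩ : t - ϖ • z ∈ torsion O X := by
    rw [← Quotient.mk_eq_zero, ← mkQ_apply, map_sub, map_smul, hz, sub_eq_zero]
    exact e.equivFun.injective (by ext i; rw [map_smul, LinearEquiv.apply_symm_apply]; exact hw i)
  have a0 : a'.1 ≠ 0 := nonZeroDivisors.coe_ne_zero a'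
  have e1 : a'.1 • t = (a'.1 * ϖ) • z := by
    rw [mul_smul, ← sub_eq_zero, ← smul_sub]; exact ha'
  obtain ⟨e', he⟩ := c.tors h hD hb hϖ hd (mul_ne_zero a0 hϖ.ne_zero)
    (e1 ▸ smul_mem _ _ (mem_span_singleton_self t))
  obtain ⟨k, hk⟩ := mem_span_singleton.1 he
  have n1 : 1 - ϖ * k ≠ 0 := fun e => hϖ.not_isUnit (.of_mul_eq_one k (by linear_combination -e))
  have q1 := congrArg κ e1
  have q2 := congrArg κ hk
  have q3 := congrArg κ h1
  simp only [map_smul, map_sub, smul_eq_mul, map_zero, mul_eq_zero, ha, false_or] at q1 q2 q3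
  refine absurd ?_ (mul_ne_zero (mul_ne_zero a0 n1) h0)
  linear_combination q1 - a'.1 * ϖ * q2 + a'.1 * ϖ * e' * q3

theorem Cy.ex_y : ∃ y : X →ₗ[O] ResidueField O, y t = 0 ∧ (y ∘ f, y ∘ s) ∉ Gb t f s b := by
  obtain ⟨a, ha, h1⟩ := c.tor
  let N : Submodule O X := span O {t} ⊔ LinearMap.range (LinearMap.lsmul O X ϖ)
  have hT : Module.IsTorsionBySet O (X ⧸ N) (maximalIdeal O) := fun z ⟨w, hw⟩ => by
    obtain ⟨z, rfl⟩ := mkQ_surjective _ z
    rw [SetLike.mem_coe, hϖ.maximalIdeal_eq, Ideal.mem_span_singleton] at hw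
    obtain ⟨w, rfl⟩ := hw
    exact (Quotient.mk_eq_zero _).2 (mem_sup_right ⟨w • z, (mul_smul _ _ _).symm⟩)
  let _ : Module (ResidueField O) (X ⧸ N) := hT.module
  have : IsScalarTower O (ResidueField O) (X ⧸ N) := hT.isScalarTower
  have hx : N.mkQ x ≠ 0 := fun e => by
    obtain ⟨p, hp, _, ⟨z, rfl⟩, e⟩ := mem_sup.1 ((Quotient.mk_eq_zero _).1 e)
    simp only [LinearMap.lsmul_apply] at e
    obtain ⟨k, hk⟩ := c.tors h hD hb hϖ hd (mul_ne_zero ha hϖ.ne_zero) (z := z) (by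
      rw [mul_smul, eq_sub_of_add_eq' e, smul_sub, h1, zero_sub]; exact neg_mem (smul_mem _ _ hp))
    have := hd.trans (c.ord (1 - ϖ * k) (by
      convert add_mem hp (smul_mem _ ϖ hk) using 1
      rw [smul_sub, ← add_sub_assoc, e, sub_smul, one_smul, mul_smul]))
    exact hϖ.not_isUnit (isUnit_of_dvd_one (by simpa using dvd_add this (dvd_mul_right ϖ k)))
  obtain ⟨y, hy⟩ := Projective.exists_dual_ne_zero (ResidueField O) hx
  have ht : N.mkQ t = 0 := (Quotient.mk_eq_zero _).2 (mem_sup_left (mem_span_singleton_self t))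
  refine ⟨y.restrictScalars O ∘ₗ N.mkQ, by simp only [LinearMap.comp_apply, ht, map_zero], ?_⟩
  rintro ⟨g, u, v, a1, a2, a3, e⟩
  obtain ⟨k, p, q, e'⟩ := mem_NN.1 c.mem
  have g0 : b * ∑ j, (p j * u j + q j * v j) = 0 := by
    rw [← tor_zero a1 ha (h1 ▸ zero_mem _), e']
    simp [a1, a2, a3, Finset.mul_sum, mul_add, mul_left_comm]
  have g1 := congrArg (residue O) ((mul_eq_zero.1 g0).resolve_left hb)
  have e1 : ∀ j, y (N.mkQ (f j)) = residue O (u j) := congrFun (congrArg Prod.fst e)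
  have e2 : ∀ j, y (N.mkQ (s j)) = residue O (v j) := congrFun (congrArg Prod.snd e)
  refine hy ?_
  rw [e']
  simp only [map_add, map_smul, map_sum, ht, smul_zero, zero_add, LinearMap.map_smul_of_tower, e1, e2,
    Algebra.smul_def]
  simpa using g1

omit h hD hb hϖ hd c [DecidableEq J] in
theorem Iso.res (h : Iso O t f s) {y y' : X →ₗ[O] ResidueField O} (h1 : y t = 0) (h2 : y' t = 0) :
    (y ∘ f) ⬝ᵥ (y' ∘ s) + (y ∘ s) ⬝ᵥ (y' ∘ f) = 0 := by
  simpa [dotProduct, Finset.sum_add_distrib] using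
    h _ ((LinearMap.mul O _).compl₁₂ y y') (by ext; simp [h1]) (by simp [h2])

/-- the extra residual point in a coordinate Lagrangian -/
theorem Cy.ex_l (h2 : IsUnit (2 : O)) {e : J → Bool}
    (h1 : finrank (ResidueField O) ↥(Gb t f s b ⊓ Lb _ e) = 1) {ρ : X →ₗ[O] O} (r1 : ρ t = 0)
    (r2 : (residue O ∘ ρ ∘ f, residue O ∘ ρ ∘ s) ∈ Lb _ e)
    (r3 : (residue O ∘ ρ ∘ f, residue O ∘ ρ ∘ s) ≠ 0) :
    ∃ y : X →ₗ[O] ResidueField O, y t = 0 ∧ (y ∘ f, y ∘ s) ∈ Lb _ e ∧ (y ∘ f, y ∘ s) ∉ Gb t f s b := by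
  obtain ⟨y, y1, y2⟩ := c.ex_y h hD hb hϖ hd
  obtain ⟨j, hj⟩ := one_swap (h.iso.gb hb) h1
  have rG : ∀ ρ : X →ₗ[O] O, ρ t = 0 → (residue O ∘ ρ ∘ f, residue O ∘ ρ ∘ s) ∈ Gb t f s b :=
    fun ρ r => ⟨b • ρ, _, _, by simp [r], fun _ => rfl, fun _ => rfl, rfl⟩
  have rY : ∀ ρ : X →ₗ[O] O, ρ t = 0 →
      (residue O ∘ ρ ∘ f) ⬝ᵥ (y ∘ s) + (residue O ∘ ρ ∘ s) ⬝ᵥ (y ∘ f) = 0 := fun ρ r =>
    h.iso.res (y := Algebra.linearMap O _ ∘ₗ ρ) (by simp [r]) y1
  let Φ : Gb t f s b →ₗ[ResidueField O] (J → ResidueField O) :=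
    { toFun w := ch (update e j (!e j)) w.1.1 w.1.2
      map_add' _ _ := by ext i; simp only [ch, Pi.add_apply]; split <;> rfl
      map_smul' _ _ := by ext i; simp only [ch, Pi.smul_apply]; split <;> rfl }
  obtain ⟨⟨γ, hγ⟩, e1⟩ := (LinearMap.injective_iff_surjective_of_finrank_eq_finrank (f := Φ)
    (by simp [(h.res hD hb).1])).1 ((injective_iff_map_eq_zero _).2 fun w hw => Subtype.ext
      (eq_bot_iff.1 hj ⟨w.2, congrFun hw⟩)) (ch (update e j (!e j)) (y ∘ f) (y ∘ s))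
  replace e1 : update (ch e γ.1 γ.2) j (ch e γ.2 γ.1 j) = update (ch e (y ∘ f) (y ∘ s)) j
    (ch e (y ∘ s) (y ∘ f) j) := by rw [← ch_not, ← ch_not]; exact e1
  have sb : ∀ (a a' p p' : J → ResidueField O) i, ch e (a - a') (p - p') i = ch e a p i - ch e a' p' i :=
    fun _ _ _ _ i => by unfold ch; split <;> rfl
  have l1 : ∀ i, i ≠ j → ch e (y ∘ f - γ.1) (y ∘ s - γ.2) i = 0 := fun i hi => by
    rw [sb, sub_eq_zero]; simpa [update_of_ne hi] using (congrFun e1 i).symm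
  have l2 : ((y ∘ f, y ∘ s) - γ) ∈ Lb _ e := fun i => by
    by_cases hi : i = j
    swap
    · exact l1 i hi
    subst hi
    have k1 := dot_ch e (residue O ∘ ρ ∘ f, residue O ∘ ρ ∘ s) ((y ∘ f, y ∘ s) - γ)
    rw [Finset.sum_eq_single i (fun a _ ha => by rw [r2 a]; simp [l1 a ha]) (by simp), r2 i] at k1
    have k2 := h.iso.gb hb _ (rG ρ r1) γ hγ
    have k3 := rY ρ r1
    simp only [Prod.snd_sub, Prod.fst_sub, dotProduct_sub, zero_mul, zero_add] at k1 k2 ⊢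
    refine (mul_eq_zero.1 (k1.symm.trans (by linear_combination k3 - k2))).resolve_left fun e' =>
      r3 (eq_bot_iff.1 hj ⟨rG ρ r1, fun a => ?_⟩)
    rw [ch_not]
    by_cases ha : a = i
    · subst ha; simpa using e'
    · simpa [update_of_ne ha] using r2 a
  have l3 : γ.1 ⬝ᵥ (y ∘ s) + γ.2 ⬝ᵥ (y ∘ f) = 0 := by
    have k1 := dot_ch e ((y ∘ f, y ∘ s) - γ) ((y ∘ f, y ∘ s) - γ)
    rw [Finset.sum_eq_zero fun a _ => by rw [l2 a]; simp] at k1
    have k2 := h.iso.gb hb γ hγ γ hγ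
    have k3 := h.iso.res y1 y1
    simp only [Prod.snd_sub, Prod.fst_sub, dotProduct_sub, sub_dotProduct] at k1
    refine (h2.map (residue O)).mul_right_eq_zero.1 ?_
    rw [map_ofNat, dotProduct_comm (y ∘ f) γ.2, dotProduct_comm (y ∘ s) γ.1] at *
    linear_combination k2 + k3 - k1
  obtain ⟨g, u, v, a1, a2, a3, rfl⟩ := hγ
  obtain ⟨g0, u0, v0, k1, k2, k3, -, k5⟩ := c.gen h hD hb hϖ hd
  by_cases hu : IsUnit (g η)
  · refine absurd (lag _ (h.iso.gb hb) (h.res hD hb).1 _ ?_) y2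
    rintro _ ⟨g', u', v', b1, b2, b3, rfl⟩
    obtain ⟨a, ρ', -, s1, s2, s3⟩ := c.red hb a1 a2 a3 b1 b2 b3 hu
    have := rY ρ' s1
    simp only [dotProduct, Function.comp, s2, s3, map_add, map_mul, add_mul, Finset.sum_add_distrib,
      mul_assoc, ← Finset.mul_sum] at this l3 ⊢
    linear_combination this + residue O a * l3
  obtain ⟨a, ρ', s0, s1, s2, s3⟩ := c.red hb k1 k2 k3 a1 a2 a3 k5
  have a0 : residue O a = 0 := (residue_eq_zero_iff _).2 fun e => hu (s0 ▸ e.mul k5)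
  let y' : X →ₗ[O] ResidueField O := y - Algebra.linearMap O _ ∘ₗ ρ'
  have e3 : y' ∘ f = y ∘ f - residue O ∘ u := by ext; simp [y', s2, a0]
  have e4 : y' ∘ s = y ∘ s - residue O ∘ v := by ext; simp [y', s3, a0]
  refine ⟨y', by simp [y', y1, s1], by rw [e3, e4]; exact l2, fun e => y2 ?_⟩
  rw [e3, e4] at e
  simpa using add_mem e ⟨g, u, v, a1, a2, a3, rfl⟩

variable {X' J' : Type} [AddCommGroup X'] [Module O X'] [Fintype J'] {t' : X'} {f' s' : J' → X'}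

omit h hD hd c in
theorem Ex0.last {E : J ⊕ Fin 2 ≃ J'} {π : X' →ₗ[O] X} (h : Ex0 t f s t' f' s' E π)
    (i1 : Iso O t f s) (i2 : Iso O t' f' s')
    (hd : finrank (ResidueField O) (Gb t f s b) = Fintype.card J)
    {c : J → Bool} {c' : J' → Bool} (c1 : ∀ j, c' (E (.inl j)) = c j) (c2 : ∀ i, c' (E (.inr i)) = true)
    {g : X →ₗ[O] O} {u v : J → O} (g1 : g t = 0) (g2 : ∀ j, g (f j) = b * u j)
    (g3 : ∀ j, g (s j) = b * v j) (g4 : (residue O ∘ u, residue O ∘ v) ∈ Lb _ c)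
    (g5 : ∀ w ∈ Gb t f s b ⊓ Lb _ c, ∃ a : ResidueField O, a • (residue O ∘ u, residue O ∘ v) = w)
    {y : X →ₗ[O] ResidueField O} (y2 : (y ∘ f, y ∘ s) ∈ Lb _ c)
    (dz : ∀ p : Fin 2 → O, (∀ i, g (π (f' (E (.inr i)))) = b * p i) →
      (!![residue O (p 0), residue O (p 1); y (π (f' (E (.inr 0)))), y (π (f' (E (.inr 1))))]).det ≠ 0) :
    ∀ w ∈ Gb t' f' s' b ⊓ Lb _ c', w.1 ⬝ᵥ (y ∘ π ∘ s') + w.2 ⬝ᵥ (y ∘ π ∘ f') = 0 → w = 0 := by
  intro w hw hy
  have hr : ∀ x : O, residue O x = 0 ↔ ϖ ∣ x := fun x => by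
    rw [residue_eq_zero_iff, hϖ.maximalIdeal_eq, Ideal.mem_span_singleton]
  obtain ⟨u', v', k1, k2, k3, k4, k5⟩ := h.pt hb g1 g2 g3
  replace dz := dz (fun i => u' (E (.inr i))) fun i => k1 _
  let r := (LinearMap.funLeft (ResidueField O) (ResidueField O) fun j : J => E (.inl j)).prodMap
    (LinearMap.funLeft (ResidueField O) (ResidueField O) fun j : J => E (.inl j))
  have spl : ∀ w w' : (J' → ResidueField O) × (J' → ResidueField O),
      w.1 ⬝ᵥ w'.2 + w.2 ⬝ᵥ w'.1 = ((r w).1 ⬝ᵥ (r w').2 + (r w).2 ⬝ᵥ (r w').1) +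
        ∑ i, (w.1 (E (.inr i)) * w'.2 (E (.inr i)) + w.2 (E (.inr i)) * w'.1 (E (.inr i))) :=
    fun w w' => by
      simp only [dotProduct, ← E.sum_comp, Fintype.sum_sum_type, Finset.sum_add_distrib, r,
        LinearMap.prodMap_apply, LinearMap.funLeft_apply]
      ring
  have rL : r w ∈ Lb _ c := fun j => by
    have := hw.2 (E (.inl j))
    unfold ch at this ⊢
    rwa [c1] at this
  have n1 : ∀ i, w.1 (E (.inr i)) = 0 := fun i => by simpa [ch, c2] using hw.2 (E (.inr i))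
  have n0 : ∀ w', r w' ∈ Lb _ c → w.1 ⬝ᵥ w'.2 + w.2 ⬝ᵥ w'.1 = 0 →
      ∑ i, w'.1 (E (.inr i)) * w.2 (E (.inr i)) = 0 := fun w' a1 a2 => by
    rw [spl, dot_ch c, Finset.sum_eq_zero fun j _ => by rw [rL j, a1 j]; simp] at a2
    simpa [n1, mul_comm] using a2
  have n2 : ∀ i, w.2 (E (.inr i)) = 0 := by
    have e : r (residue O ∘ u', residue O ∘ v') = (residue O ∘ u, residue O ∘ v) := by
      ext j <;> simp [r, k3, k4]
    have e' : r (y ∘ π ∘ f', y ∘ π ∘ s') = (y ∘ f, y ∘ s) := by ext j <;> simp [r, h.f, h.s]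
    have q1 := n0 _ (e ▸ g4) (i2.gb hb w hw.1 _ ⟨g ∘ₗ π, u', v', by simp [h.t, g1], k1, k2, rfl⟩)
    have q2 := n0 _ (e' ▸ y2) hy
    refine congrFun (eq_zero_of_mulVec_eq_zero dz (funext fun a => ?_))
    fin_cases a
    · simpa [mulVec, dotProduct] using q1
    · simpa [mulVec, dotProduct] using q2
  obtain ⟨a, ha⟩ := g5 (r w) ⟨lag _ (i1.gb hb) hd _ (by
    rintro _ ⟨g, u, v, h1, h2, h3, rfl⟩
    obtain ⟨u', v', k1, k2, k3, k4, k5⟩ := h.pt hb h1 h2 h3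
    have := i2.gb hb _ ⟨g ∘ₗ π, u', v', by simp [h.t, h1], k1, k2, rfl⟩ w hw.1
    have e : r (residue O ∘ u', residue O ∘ v') = (residue O ∘ u, residue O ∘ v) := by
      ext j <;> simp [r, k3, k4]
    rw [spl, e] at this
    simpa [n1, n2] using this), rL⟩
  obtain ⟨a, rfl⟩ := residue_surjective a
  obtain ⟨⟨H, U, V, H1, H2, H3, rfl⟩, -⟩ := hw
  have q : ∀ i, residue O a * residue O (u' (E (.inr i))) = 0 := fun i => by
    have := h.int (b * ϖ) (H - a • g ∘ₗ π) (by simp [H1, h.t, g1]) (fun j => by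
      simp only [LinearMap.sub_apply, LinearMap.smul_apply, LinearMap.comp_apply, H2, k1, k3,
        smul_eq_mul, mul_left_comm a, ← mul_sub]
      exact mul_dvd_mul_left b ((hr _).1 (by
        rw [map_sub, sub_eq_zero, map_mul]; exact (congrFun (congrArg Prod.fst ha) j).symm))) (fun j => by
      simp only [LinearMap.sub_apply, LinearMap.smul_apply, LinearMap.comp_apply, H3, k2,
        smul_eq_mul, mul_left_comm a, ← mul_sub]
      refine mul_dvd_mul_left b ((hr _).1 ?_)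
      obtain ⟨j | j, rfl⟩ := E.surjective j
      · rw [map_sub, sub_eq_zero, k4, map_mul]; exact (congrFun (congrArg Prod.snd ha) j).symm
      · rw [k5, mul_zero, sub_zero]; exact n2 j) i
    simp only [LinearMap.sub_apply, LinearMap.smul_apply, LinearMap.comp_apply, H2, k1,
      smul_eq_mul, mul_left_comm a, ← mul_sub] at this
    have := (hr _).2 ((mul_dvd_mul_iff_left hb).1 this)
    rw [map_sub, sub_eq_zero, map_mul] at this
    exact this ▸ n1 i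
  have a0 : residue O a = 0 := by
    by_contra e
    exact dz (by simp [det_fin_two, (mul_eq_zero.1 (q _)).resolve_left e])
  rw [a0, zero_smul] at ha
  ext j <;> obtain ⟨j | j, rfl⟩ := E.surjective j
  exacts [(congrFun (congrArg Prod.fst ha) j).symm, n1 j, (congrFun (congrArg Prod.snd ha) j).symm, n2 j]

end Vale.Agent.P004F.Alg
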