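import Mathlib

/-! Determinants of square systems of relations. -/

namespace Vale.Agent.P004F.Alg
open Submodule Set Matrix

variable {O : Type} [CommRing O]

/-- `d` is the determinant of a square system of relations among generators. -/
def Dt (Y : Type) [AddCommGroup Y] [Module O Y] (d : O) : Prop :=
  ∃ (α : Type) (_ : Fintype α) (_ : DecidableEq α) (y : α → Y) (A : Matrix α α O),
    span O (range y) = ⊤ ∧ (∀ i, ∑ j, A i j • y j = 0) ∧ A.det = d

/-- `d` is the determinant of a square presentation. -/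
def Pr (Y : Type) [AddCommGroup Y] [Module O Y] (d : O) : Prop :=
  ∃ (α : Type) (_ : Fintype α) (_ : DecidableEq α) (y : α → Y) (A : Matrix α α O),
    span O (range y) = ⊤ ∧ (∀ v : α → O, ∑ j, v j • y j = 0 ↔ ∃ u : α → O, v = u ᵥ* A) ∧ A.det = d

variable {Y Y' : Type} [AddCommGroup Y] [Module O Y] [AddCommGroup Y'] [Module O Y']

theorem Pr.dt {d : O} (h : Pr Y d) : Dt Y d := by
  obtain ⟨α, _, _, y, A, h1, h2, h3⟩ := h
  exact ⟨α, _, _, y, A, h1, fun i => (h2 (A i)).2 ⟨Pi.single i 1, by simp; rfl⟩, h3⟩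

theorem ex_co {α : Type} [Fintype α] {y : α → Y} (h : span O (range y) = ⊤) (z : Y) :
    ∃ c : α → O, ∑ j, c j • y j = z :=
  (mem_span_range_iff_exists_fun O).1 (h ▸ mem_top)

theorem Pr.dvd {d e : O} (h : Pr Y d) (h' : Dt Y e) : d ∣ e := by
  obtain ⟨α, _, _, y, A, h1, h2, rfl⟩ := h
  obtain ⟨β, _, _, z, B, k1, k2, rfl⟩ := h'
  choose C hC using fun a => ex_co k1 (y a)
  choose E hE using fun b => ex_co h1 (z b)
  -- relations among (y, z)
  have key : ∀ (v : α → O) (w : β → O), ∑ j, v j • y j + ∑ j, w j • z j = 0 →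
      ∃ u : α ⊕ β → O, Sum.elim v w = u ᵥ* fromBlocks A 0 (-(of E)) 1 := by
    intro v w hvw
    obtain ⟨u, hu⟩ := (h2 (v + w ᵥ* of E)).1 (by
      rw [← hvw]
      simp only [Pi.add_apply, add_smul, Finset.sum_add_distrib, vecMul, dotProduct, of_apply,
        Finset.sum_smul, mul_smul]
      congr 1
      rw [Finset.sum_comm]
      simp only [← Finset.smul_sum, hE])
    refine ⟨Sum.elim u w, ?_⟩
    rw [vecMul_fromBlocks]
    simp only [Sum.elim_comp_inl, Sum.elim_comp_inr, ← hu, vecMul_neg, vecMul_zero, vecMul_one]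
    simp
  have hr : ∀ r : α ⊕ β, ∃ u : α ⊕ β → O,
      fromBlocks (1 : Matrix α α O) (-(of C)) 0 B r = u ᵥ* fromBlocks A 0 (-(of E)) 1 := by
    rintro (a | b)
    · obtain ⟨u, hu⟩ := key (Pi.single a 1) (-(C a)) (by
        simp [Pi.single_apply, hC, Finset.sum_neg_distrib])
      exact ⟨u, hu ▸ by ext (i | i) <;> simp [one_apply, Pi.single_apply, eq_comm]⟩
    · obtain ⟨u, hu⟩ := key 0 (B b) (by simp [k2])
      exact ⟨u, hu ▸ by ext (i | i) <;> simp⟩
  choose U hU using hr
  have : fromBlocks (1 : Matrix α α O) (-(of C)) 0 B = of U * fromBlocks A 0 (-(of E)) 1 := by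
    ext r c; rw [hU r]; simp [mul_apply, vecMul, dotProduct]
  have h5 := congrArg det this
  rw [det_mul, det_fromBlocks_zero₂₁, det_fromBlocks_zero₁₂] at h5
  simp only [det_one, one_mul, mul_one] at h5
  exact ⟨_, h5.trans (mul_comm _ _)⟩

theorem Dt.surj {d : O} (h : Dt Y d) (φ : Y →ₗ[O] Y') (hφ : Function.Surjective φ) : Dt Y' d := by
  obtain ⟨α, _, _, y, A, h1, h2, h3⟩ := h
  refine ⟨α, _, _, φ ∘ y, A, ?_, fun i => ?_, h3⟩
  · rw [range_comp, ← map_span, h1, Submodule.map_top, LinearMap.range_eq_top.2 hφ]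
  · simpa using congrArg φ (h2 i)

theorem Pr.equiv {d : O} (h : Pr Y d) (φ : Y ≃ₗ[O] Y') : Pr Y' d := by
  obtain ⟨α, _, _, y, A, h1, h2, h3⟩ := h
  refine ⟨α, _, _, φ ∘ y, A, ?_, fun v => ?_, h3⟩
  · have : (φ ∘ y) = (φ : Y →ₗ[O] Y') ∘ y := rfl
    rw [this, range_comp, ← map_span, h1, Submodule.map_top, LinearMap.range_eq_top.2 φ.surjective]
  · rw [← h2 v, ← φ.map_eq_zero_iff]; simp

theorem Dt.smul_eq {d : O} (h : Dt Y d) (z : Y) : d • z = 0 := by
  obtain ⟨α, _, _, y, A, h1, h2, rfl⟩ := h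
  obtain ⟨c, rfl⟩ := ex_co h1 z
  have : ∀ i, A.det • y i = 0 := fun i => by
    have h := congrArg (fun M : Matrix α α O => ∑ j, M i j • y j) (adjugate_mul A)
    simp only [mul_apply, Finset.sum_smul, mul_smul] at h
    rw [Finset.sum_comm] at h
    simp only [← Finset.smul_sum, h2, smul_zero, Finset.sum_const_zero] at h
    simpa [one_apply] using h.symm
  simp [Finset.smul_sum, smul_comm A.det, this]

theorem Dt.mul (N : Submodule O Y) {a b : O} (h : Dt N a) (h' : Dt (Y ⧸ N) b) : Dt Y (a * b) := by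
  obtain ⟨α, _, _, y, A, h1, h2, rfl⟩ := h
  obtain ⟨β, _, _, z, B, k1, k2, rfl⟩ := h'
  choose z' hz using fun b => N.mkQ_surjective (z b)
  have hm : ∀ b, ∑ j, B b j • z' j ∈ N := fun b => by
    rw [← Quotient.mk_eq_zero, ← mkQ_apply]; simp only [map_sum, map_smul, hz, k2]
  choose C hC using fun b => ex_co h1 ⟨_, hm b⟩
  refine ⟨α ⊕ β, inferInstance, inferInstance, Sum.elim (fun a => (y a : Y)) z',
    fromBlocks A 0 (-(of C)) B, ?_, ?_, det_fromBlocks_zero₁₂ ..⟩
  · refine eq_top_iff.2 fun x _ => ?_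
    obtain ⟨c, hc⟩ := ex_co k1 (N.mkQ x)
    have : x - ∑ j, c j • z' j ∈ N := by
      rw [← Quotient.mk_eq_zero, ← mkQ_apply]; simp only [map_sub, map_sum, map_smul, hz, hc, sub_self]
    obtain ⟨e, he⟩ := ex_co h1 ⟨_, this⟩
    have he' := congrArg N.subtype he
    refine (mem_span_range_iff_exists_fun O).2 ⟨Sum.elim e c, ?_⟩
    simp only [map_sum, map_smul, subtype_apply] at he'
    simp [Fintype.sum_sum_type, he']
  · rintro (a | b)
    · have := congrArg N.subtype (h2 a)
      simpa [Fintype.sum_sum_type] using this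
    · have := congrArg N.subtype (hC b)
      simp only [map_sum, map_smul, subtype_apply] at this
      simp [Fintype.sum_sum_type, this, Finset.sum_neg_distrib]

/-- a free module modulo a square family -/
theorem pr_free {I : Type} [Fintype I] [DecidableEq I] (b : Module.Basis I O Y) (x : I → Y) :
    Pr (Y ⧸ span O (range x)) (b.det x) := by
  refine ⟨I, inferInstance, inferInstance, (span O (range x)).mkQ ∘ b, (b.toMatrix x)ᵀ, ?_, fun v => ?_, ?_⟩
  · rw [range_comp, ← map_span, b.span_eq, Submodule.map_top, range_mkQ]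
  · have : ∑ j, v j • ((span O (range x)).mkQ ∘ b) j = (span O (range x)).mkQ (∑ j, v j • b j) := by
      simp
    rw [this, mkQ_apply, Quotient.mk_eq_zero, mem_span_range_iff_exists_fun]
    refine exists_congr fun u => ⟨fun h => ?_, fun h => ?_⟩
    · ext j
      have := congrArg (fun z => b.repr z j) h
      simpa [vecMul, dotProduct, Module.Basis.toMatrix_apply, Finsupp.single_apply] using this.symm
    · refine b.ext_elem fun j => ?_
      simp [h, vecMul, dotProduct, Module.Basis.toMatrix_apply, Finsupp.single_apply]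
  · rw [det_transpose, Module.Basis.det_apply]

/-- extension of a square presentation by a free quotient -/
theorem Pr.ext {I : Type} [Fintype I] [DecidableEq I] (φ : Y →ₗ[O] Y') (hφ : Function.Surjective φ)
    (b : Module.Basis I O Y') {τ : O} (h : Pr (LinearMap.ker φ) τ) (x : I → Y) :
    Pr (Y ⧸ span O (range x)) (τ * b.det (φ ∘ x)) := by
  obtain ⟨α, _, _, y, A, h1, h2, rfl⟩ := h
  choose e he using fun j => hφ (b j)
  have hd : ∀ z : Y, ∃ c : α → O, z = ∑ a, c a • (y a : Y) + ∑ j, b.repr (φ z) j • e j := fun z => by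
    have : z - ∑ j, b.repr (φ z) j • e j ∈ LinearMap.ker φ := by
      simp [LinearMap.mem_ker, he]
    obtain ⟨c, hc⟩ := ex_co h1 ⟨_, this⟩
    have := congrArg (LinearMap.ker φ).subtype hc
    simp only [map_sum, map_smul, subtype_apply] at this
    exact ⟨c, by rw [this]; abel⟩
  choose C hC using fun i => hd (x i)
  set N := span O (range x)
  refine ⟨α ⊕ I, inferInstance, inferInstance, N.mkQ ∘ Sum.elim (fun a => (y a : Y)) e,
    fromBlocks A 0 (of C) (b.toMatrix (φ ∘ x))ᵀ, ?_, fun v => ?_, ?_⟩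
  · have : span O (range (Sum.elim (fun a => (y a : Y)) e)) = ⊤ := eq_top_iff.2 fun z _ => by
      obtain ⟨c, hc⟩ := hd z
      refine (mem_span_range_iff_exists_fun O).2 ⟨Sum.elim c (b.repr (φ z)), ?_⟩
      rw [Fintype.sum_sum_type]; exact hc.symm
    rw [range_comp, ← map_span, this, Submodule.map_top, range_mkQ]
  · have : ∑ j, v j • (N.mkQ ∘ Sum.elim (fun a => (y a : Y)) e) j =
        N.mkQ (∑ a, v (.inl a) • (y a : Y) + ∑ j, v (.inr j) • e j) := by
      simp only [Fintype.sum_sum_type, map_add, map_sum, map_smul, Function.comp, Sum.elim_inl,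
        Sum.elim_inr]
    rw [this, mkQ_apply, Quotient.mk_eq_zero, mem_span_range_iff_exists_fun]
    have hx : ∀ u : I → O, ∑ i, u i • x i = ∑ a, (u ᵥ* of C) a • (y a : Y) +
        ∑ j, (u ᵥ* (b.toMatrix (φ ∘ x))ᵀ) j • e j := fun u => by
      rw [Finset.sum_congr rfl fun i _ => congrArg (u i • ·) (hC i)]
      simp only [smul_add, Finset.sum_add_distrib, Finset.smul_sum, vecMul, dotProduct, of_apply,
        Finset.sum_smul, mul_smul, transpose_apply, Module.Basis.toMatrix_apply, Function.comp]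
      congr 1 <;> exact Finset.sum_comm
    constructor
    · rintro ⟨u, hu⟩
      rw [hx] at hu
      have h3 : ∀ j, v (.inr j) = (u ᵥ* (b.toMatrix (φ ∘ x))ᵀ) j := fun j => by
        have := congrArg (fun z => b.repr (φ z) j) hu
        simpa [he, Finsupp.single_apply, (y _).2.out] using this.symm
      simp only [h3, add_left_inj] at hu
      obtain ⟨w, hw⟩ := (h2 (fun a => v (.inl a) - (u ᵥ* of C) a)).1 (Subtype.ext (by
        simp only [sub_smul, Finset.sum_sub_distrib]
        simp [hu]))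
      refine ⟨Sum.elim w u, ?_⟩
      rw [vecMul_fromBlocks]
      ext (a | j)
      · simp [← hw]
      · simp [h3]
    · rintro ⟨u, rfl⟩
      refine ⟨u ∘ Sum.inr, ?_⟩
      have := congrArg (LinearMap.ker φ).subtype ((h2 _).2 ⟨u ∘ Sum.inl, rfl⟩)
      simp only [map_sum, map_smul, subtype_apply, map_zero] at this
      rw [hx, vecMul_fromBlocks]
      simp [add_smul, Finset.sum_add_distrib, this]
  · rw [det_fromBlocks_zero₁₂, det_transpose, Module.Basis.det_apply]

/-- over a PID every finite torsion module has a square presentation -/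
theorem ex_pr [IsDomain O] [IsPrincipalIdealRing O] [Module.Finite O Y] (h : Module.IsTorsion O Y) :
    ∃ τ : O, τ ≠ 0 ∧ Pr Y τ := by
  obtain ⟨n, φ, hφ⟩ := Module.Finite.exists_fin' O Y
  have h0 : Module.finrank O (LinearMap.ker φ) = n := by
    have := (LinearMap.ker φ).finrank_quotient_add_finrank
    rw [(φ.quotKerEquivOfSurjective hφ).finrank_eq, Module.finrank_eq_zero_iff_isTorsion.2 h] at this
    simpa using this
  let c := Module.finBasisOfFinrankEq O _ h0
  have hs : span O (range fun i => (c i : Fin n → O)) = LinearMap.ker φ := by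
    have : (fun i => (c i : Fin n → O)) = (LinearMap.ker φ).subtype ∘ c := rfl
    rw [this, range_comp, ← map_span, c.span_eq, Submodule.map_top, range_subtype]
  refine ⟨_, ?_, (pr_free (Pi.basisFun O (Fin n)) fun i => (c i : Fin n → O)).equiv
    ((quotEquivOfEq _ _ hs).trans (φ.quotKerEquivOfSurjective hφ))⟩
  have hl : LinearIndependent O fun i => (c i : Fin n → O) :=
    c.linearIndependent.map' (LinearMap.ker φ).subtype (ker_subtype _)
  rw [Module.Basis.det_apply, ← det_transpose]
  intro h1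
  obtain ⟨v, hv, h2⟩ := exists_vecMul_eq_zero_iff.2 h1
  refine hv (funext (Fintype.linearIndependent_iff.1 hl v ?_))
  ext j
  simpa [vecMul, dotProduct, Module.Basis.toMatrix_apply] using congrFun h2 j

open TensorProduct in
theorem Pr.baseChange (R : Type) [CommRing R] [Algebra O R] {d : O} (h : Pr Y d) :
    Pr (R ⊗[O] Y) (algebraMap O R d) := by
  obtain ⟨α, _, _, y, A, h1, h2, rfl⟩ := h
  have hs : Function.Surjective (Fintype.linearCombination O y) := fun z => by
    simpa [Fintype.linearCombination_apply] using ex_co h1 z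
  have he : Function.Exact A.vecMulLinear (Fintype.linearCombination O y) := fun v => by
    rw [Fintype.linearCombination_apply, h2]; simp [eq_comm]
  have hφ : ∀ v : α → R, (Fintype.linearCombination O y).lTensor R
      (∑ a, v a ⊗ₜ[O] (Pi.single a 1 : α → O)) = ∑ a, v a • ((1 : R) ⊗ₜ[O] y a) := fun v => by
    simp [map_sum, smul_tmul', Fintype.linearCombination_apply_single]
  have hv : ∀ z : R ⊗[O] (α → O), z = ∑ a, piScalarRight O R R α z a ⊗ₜ[O] (Pi.single a 1 : α → O) :=
    fun z => (piScalarRight O R R α).injective (by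
      ext j; simp [map_sum, Finset.sum_apply, Pi.single_apply])
  refine ⟨α, _, _, fun a => 1 ⊗ₜ y a, A.map (algebraMap O R), eq_top_iff.2 fun z _ => ?_,
    fun v => ?_, (RingHom.map_det (algebraMap O R) A).symm⟩
  · obtain ⟨w, rfl⟩ := LinearMap.lTensor_surjective R hs z
    exact (mem_span_range_iff_exists_fun R).2 ⟨_, by rw [← hφ, ← hv]⟩
  · rw [← hφ, lTensor_exact R he hs]
    have hA : ∀ u : α → R, piScalarRight O R R α (A.vecMulLinear.lTensor R
        (∑ a, u a ⊗ₜ[O] (Pi.single a 1 : α → O))) = u ᵥ* A.map (algebraMap O R) := fun u => by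
      ext j
      simp [map_sum, Finset.sum_apply, vecMul, dotProduct, Algebra.smul_def, mul_comm]
    have hB : piScalarRight O R R α (∑ a, v a ⊗ₜ[O] (Pi.single a 1 : α → O)) = v := by
      ext j; simp [map_sum, Finset.sum_apply, Pi.single_apply]
    constructor
    · rintro ⟨w, hw⟩
      exact ⟨_, by rw [← hA, ← hv, hw, hB]⟩
    · rintro ⟨u, hu⟩
      exact ⟨_, (piScalarRight O R R α).injective (by rw [hA, hB, hu])⟩

end Vale.Agent.P004F.Alg
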