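import Vale.Agent.P004F.Alg.Fit

/-! Isotropic families of coordinates on a free module: the key identity. -/

namespace Vale.Agent.P004F.Alg
open Submodule Set Matrix Function

variable {O F I : Type} [CommRing O] [AddCommGroup F] [Module O F] [Fintype I] [DecidableEq I]

/-- weighted isotropy of all points -/
def Pol (w : I → O) (x y : I → F) : Prop :=
  ∀ g g' : F →ₗ[O] O, ∑ i, w i * (g (x i) * g' (y i) + g (y i) * g' (x i)) = 0

theorem Pol.swap {w : I → O} {x y : I → F} (h : Pol w x y) (j : I) :
    Pol w (update x j (y j)) (update y j (x j)) := fun g g' => by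
  rw [← h g g']
  refine Finset.sum_congr rfl fun i _ => ?_
  by_cases e : i = j
  · subst e; simp [add_comm]
  · simp [update_of_ne e]

variable [IsDomain O] (b : Module.Basis I O F)

theorem det_eq_zero_iff (x : I → F) :
    b.det x = 0 ↔ ∃ g : F →ₗ[O] O, g ≠ 0 ∧ ∀ i, g (x i) = 0 := by
  rw [Module.Basis.det_apply, ← exists_vecMul_eq_zero_iff]
  have key : ∀ (v : I → O) i, (v ᵥ* b.toMatrix x) i = b.constr O v (x i) := fun v i => by
    simp [vecMul, dotProduct, Module.Basis.toMatrix_apply, Module.Basis.constr_apply_fintype,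
      mul_comm]
  constructor
  · rintro ⟨v, hv, h⟩
    exact ⟨b.constr O v, by simpa using hv, fun i => by rw [← key, h]; rfl⟩
  · rintro ⟨g, hg, h⟩
    refine ⟨(b.constr O).symm g, by simpa using hg, funext fun i => ?_⟩
    rw [key]; simpa using h i

include b in
theorem ex_pt (x : I → F) (j : I) : ∃ g : F →ₗ[O] O, g ≠ 0 ∧ ∀ i, i ≠ j → g (x i) = 0 := by
  obtain ⟨g, hg, h⟩ := (det_eq_zero_iff b (update x j 0)).1 (by simp)
  exact ⟨g, hg, fun i e => by simpa [update_of_ne e] using h i⟩

/-- adjacent conditions are not both transverse -/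
theorem Pol.adj {w : I → O} {x y : I → F} (h : Pol w x y) (h2 : (2 : O) ≠ 0) (j : I) (hw : w j ≠ 0) :
    b.det x = 0 ∨ b.det (update x j (y j)) = 0 := by
  obtain ⟨g, hg, h1⟩ := ex_pt b x j
  have := h g g
  rw [Finset.sum_eq_single j (fun i _ e => by simp [h1 i e]) (by simp)] at this
  have : g (x j) = 0 ∨ g (y j) = 0 := by
    have h3 : w j * 2 * (g (x j) * g (y j)) = 0 := by linear_combination this
    simpa [hw, h2] using h3
  refine this.imp (fun e => (det_eq_zero_iff b _).2 ⟨g, hg, fun i => ?_⟩)
    fun e => (det_eq_zero_iff b _).2 ⟨g, hg, fun i => ?_⟩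
  · by_cases e' : i = j
    · exact e' ▸ e
    · exact h1 i e'
  · by_cases e' : i = j
    · subst e'; simpa using e
    · simpa [update_of_ne e'] using h1 i e'

omit [IsDomain O] in
theorem det_rel {x : I → F} {e : I → O} (h : ∑ i, e i • x i = 0) (i j : I) (φ : F) :
    e i * b.det (update x j φ) = e j * b.det (update x i φ) := by
  by_cases hij : i = j
  · rw [hij]
  have h1 : e i • x i = ∑ k ∈ Finset.univ.erase i, (-e k) • x k := by
    rw [← Finset.add_sum_erase _ _ (Finset.mem_univ i)] at h
    simp only [neg_smul, Finset.sum_neg_distrib]; exact eq_neg_of_add_eq_zero_left h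
  have h2 : e i * b.det (update x j φ) = b.det (update (update x j φ) i (e i • x i)) := by
    rw [AlternatingMap.map_update_smul, smul_eq_mul]
    congr 2
    exact (update_eq_self_iff.2 (update_of_ne hij _ _).symm).symm
  rw [h2, h1, AlternatingMap.map_update_sum, Finset.sum_eq_single j]
  · rw [AlternatingMap.map_update_smul, smul_eq_mul, neg_mul, ← mul_neg,
      ← b.det.map_swap _ hij]
    congr 2
    ext k
    by_cases e1 : k = i
    · subst e1; simp [update_of_ne (Ne.symm hij)]
    by_cases e2 : k = j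
    · subst e2; simp [update_of_ne e1]
    · simp [Equiv.swap_apply_of_ne_of_ne e1 e2, update_of_ne e1, update_of_ne e2]
  · intro k hk e2
    have e1 := Finset.ne_of_mem_erase hk
    rw [AlternatingMap.map_update_smul, b.det.map_eq_zero_of_eq _ (i := i) (j := k)
      (by simp [update_of_ne e1, update_of_ne e2]) e1.symm, smul_zero]
  · intro h; exact absurd (Finset.mem_erase.2 ⟨Ne.symm hij, Finset.mem_univ j⟩) h

theorem det_pt {x : I → F} {κ : F →ₗ[O] O} (h : ∀ i, κ (x i) = 0) (i : I) (φ ψ : F) :
    b.det (update x i φ) * κ ψ = b.det (update x i ψ) * κ φ := by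
  by_cases hκ : κ = 0
  · simp [hκ]
  have := (det_eq_zero_iff b (update x i (κ ψ • φ - κ φ • ψ))).2 ⟨κ, hκ, fun k => by
    by_cases e : k = i
    · subst e; simp [mul_comm]
    · simp [update_of_ne e, h]⟩
  rw [AlternatingMap.map_update_sub, AlternatingMap.map_update_smul,
    AlternatingMap.map_update_smul] at this
  simp only [smul_eq_mul] at this
  linear_combination this

omit [IsDomain O] [DecidableEq I] in
include b in
theorem Pol.rel {w : I → O} {x y : I → F} (h : Pol w x y) {κ : F →ₗ[O] O} (hκ : ∀ i, κ (x i) = 0) :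
    ∑ i, (w i * κ (y i)) • x i = 0 := by
  refine b.ext_elem fun j => ?_
  have := h κ (b.coord j)
  simpa [hκ, mul_assoc] using this

/-- the key identity -/
theorem Pol.key {w : I → O} {x y : I → F} (h : Pol w x y) {κ : F →ₗ[O] O} (hκ : ∀ i, κ (x i) = 0)
    (i j : I) : b.det (update x i (y i)) * (w j * κ (y j) ^ 2) =
      b.det (update x j (y j)) * (w i * κ (y i) ^ 2) := by
  have h1 := det_pt b hκ i (y i) (y j)
  have h2 := det_rel b (h.rel b hκ) i j (y j)
  linear_combination (w j * κ (y j)) * h1 - κ (y i) * h2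

end Vale.Agent.P004F.Alg
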