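import Vale.Agent.P004F.Alg.Res

/-! The Kolyvagin bound, pure algebra. -/

namespace Vale.Agent.P004F.Alg
open Submodule Set Matrix Function Module IsLocalRing

section
variable {O X J : Type} [CommRing O] [IsDomain O] [IsDiscreteValuationRing O] [AddCommGroup X]
  [Module O X] [Fintype J] [DecidableEq J] {t : X} {f s : J → X} {D b : O}

theorem Ok0.om (h : Ok0 t f s D b) (hD : D ≠ 0) : ∃ (φ : X →ₗ[O] (Option J → O)) (τ : O),
    Surjective φ ∧ (∀ g : X →ₗ[O] O, ∃ g' : (Option J → O) →ₗ[O] O, g = g' ∘ₗ φ) ∧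
    ∀ x : J → X, Pr (X ⧸ span O (insert t (range x)))
      (τ * (Pi.basisFun O _).det (φ ∘ fun o : Option J => o.elim t x)) := by
  have := h.fin
  have r : finrank O (X ⧸ torsion O X) = Fintype.card (Option J) := by
    rw [finrank_quotient_eq_of_le_torsion le_rfl, h.rank hD]
  let e := ((finBasisOfFinrankEq O _ r).reindex (Fintype.equivFin _).symm).equivFun
  have hs : Surjective (e.toLinearMap ∘ₗ mkQ _) := e.surjective.comp (mkQ_surjective _)
  obtain ⟨τ, -, hτ⟩ := ex_pr (O := O) (Y := LinearMap.ker (e.toLinearMap ∘ₗ mkQ _)) fun z => by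
    obtain ⟨a, ha⟩ : z.1 ∈ torsion O X := by simpa using z.2
    exact ⟨a, Subtype.ext ha⟩
  refine ⟨_, τ, hs, fun g => ⟨(torsion O _).liftQ g (fun z ⟨a, ha⟩ => ?_) ∘ₗ e.symm.toLinearMap,
    by ext; simp⟩, fun x => range_elim t x ▸ hτ.ext _ hs _ _⟩
  have := congrArg g ha
  simpa [Submonoid.smul_def, nonZeroDivisors.coe_ne_zero a] using this

omit [IsDiscreteValuationRing O] in
theorem adj0 (h : Iso O t f s) (h2 : (2 : O) ≠ 0) {φ : X →ₗ[O] (Option J → O)} (hφ : Surjective φ)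
    {c : J → Bool} {j : J}
    (hA : ∀ g : X →ₗ[O] O, g t = 0 → (∀ i, g (ch (update c j (!c j)) f s i) = 0) → g = 0) :
    (Pi.basisFun O _).det (φ ∘ fun o : Option J => o.elim t (ch c f s)) = 0 := by
  obtain ⟨g, hg, h1⟩ := ex_pt (Pi.basisFun O _) (φ ∘ fun o : Option J => o.elim t (ch c f s)) (some j)
  have h3 : ∀ i, i ≠ j → g (φ (ch c f s i)) = 0 := fun i e => h1 (some i) (by simpa using e)
  have := (h.ch c).pt (g := g ∘ₗ φ) (g' := g ∘ₗ φ) (h1 none (by simp)) (h1 none (by simp))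
  rw [Finset.sum_eq_single j (fun i _ e => by simp [h3 i e]) (by simp)] at this
  have h4 : 2 * (g (φ (ch c f s j)) * g (φ (ch c s f j))) = 0 := by
    simp only [LinearMap.comp_apply] at this; linear_combination this
  rcases mul_eq_zero.1 ((mul_eq_zero.1 h4).resolve_left h2) with e | e
  · refine (det_eq_zero_iff _ _).2 ⟨g, hg, ?_⟩
    rintro (_ | i)
    · exact h1 none (by simp)
    · by_cases e' : i = j
      exacts [e' ▸ e, h3 i e']
  · refine absurd (LinearMap.ext fun z => ?_) hg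
    obtain ⟨z, rfl⟩ := hφ z
    refine LinearMap.congr_fun (hA (g ∘ₗ φ) (h1 none (by simp)) fun i => ?_) z
    rw [ch_not]
    by_cases e' : i = j
    · subst e'; simpa using e
    · simpa [update_of_ne e'] using h3 i e'

omit [DecidableEq J] [Fintype J] in
theorem two_pts {ϖ : O} (hϖ : Irreducible ϖ) (hb : b ≠ 0) {c : J → Bool}
    (h : 2 ≤ finrank (ResidueField O) ↥(Gb t f s b ⊓ Lb _ c)) :
    ∃ (g : Fin 2 → X →ₗ[O] O) (u v : Fin 2 → J → O), (∀ a, g a t = 0) ∧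
      (∀ a j, g a (f j) = b * u a j) ∧ (∀ a j, g a (s j) = b * v a j) ∧
      (∀ a, (residue O ∘ u a, residue O ∘ v a) ∈ Lb _ c) ∧
      ∀ x y : O, (∀ j, b * ϖ ∣ (x • g 0 + y • g 1) (f j)) → (∀ j, b * ϖ ∣ (x • g 0 + y • g 1) (s j)) →
        ϖ ∣ x ∧ ϖ ∣ y := by
  have hr : ∀ x : O, residue O x = 0 ↔ ϖ ∣ x := fun x => by
    rw [residue_eq_zero_iff, hϖ.maximalIdeal_eq, Ideal.mem_span_singleton]
  obtain ⟨w, hw⟩ := exists_linearIndependent_of_le_finrank h
  choose g u v h1 h2 h3 h4 using fun a => (w a).2.1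
  refine ⟨g, u, v, h1, h2, h3, fun a => h4 a ▸ (w a).2.2, fun x y k1 k2 => ?_⟩
  have e : w = ![w 0, w 1] := by ext1 a; fin_cases a <;> rfl
  rw [e, LinearIndependent.pair_iff] at hw
  rw [← hr, ← hr]
  refine hw _ _ (Subtype.ext ?_)
  have q : ∀ p q : O, b * ϖ ∣ x * (b * p) + y * (b * q) →
      residue O x * residue O p + residue O y * residue O q = 0 := fun p q h => by
    rw [← map_mul, ← map_mul, ← map_add, hr, ← mul_dvd_mul_iff_left hb]
    convert h using 1; ring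
  ext j
  · simpa [h4] using q _ _ (by simpa [h2] using k1 j)
  · simpa [h4] using q _ _ (by simpa [h3] using k2 j)

/-- parity: a residual kernel of rank at most one is zero -/
theorem fin (h : Ok0 t f s D b) (hD : D ≠ 0) (hb : b ≠ 0) (h2 : (2 : O) ≠ 0) {ϖ : O}
    (hϖ : Irreducible ϖ) (h1 : ∀ g g' : X →ₗ[O] O, g t = 0 → g' t = 0 → (∀ j, b ∣ g (f j)) →
      (∀ j, b ∣ g' (f j)) → (∀ j, b * ϖ ∣ g (s j)) → (∀ j, b * ϖ ∣ g' (s j)) →
      ∃ x y : O, (∀ j, b * ϖ ∣ (x • g + y • g') (f j)) ∧ ¬ (ϖ ∣ x ∧ ϖ ∣ y)) : D ∣ b ^ 2 := by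
  obtain ⟨D', e1, e2⟩ := h.pr
  have hc : ch (fun _ => false) f s = s := rfl
  rcases Nat.lt_or_ge (finrank (ResidueField O) ↥(Gb t f s b ⊓ Lb _ fun _ => false)) 2 with k | k
  · rcases Nat.lt_succ_iff_lt_or_eq.1 k with k | k
    · have k' : Gb t f s b ⊓ Lb _ (fun _ => false) = ⊥ :=
        Submodule.finrank_eq_zero.1 (Nat.lt_one_iff.1 k)
      have := ((h.res hD hb).2 _ k').2 D'
      rw [hc] at this
      exact e1.dvd'.trans (this e2)
    · obtain ⟨j, hj⟩ := one_swap (h.iso.gb hb) k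
      obtain ⟨φ, τ, a1, -, a3⟩ := h.om hD
      have := (a3 s).dvd e2.dt
      rw [← hc, adj0 h.iso h2 a1 ((h.res hD hb).2 _ hj).1, mul_zero, zero_dvd_iff] at this
      exact absurd this (e1.ne_zero_iff.2 hD)
  · obtain ⟨g, u, v, a1, a2, a3, a4, a5⟩ := two_pts hϖ hb k
    have : ∀ a j, b * ϖ ∣ g a (s j) := fun a j => a3 a j ▸ mul_dvd_mul_left b (by
      rw [← Ideal.mem_span_singleton, ← hϖ.maximalIdeal_eq, ← residue_eq_zero_iff]; exact a4 a j)
    obtain ⟨x, y, k1, k2⟩ := h1 (g 0) (g 1) (a1 0) (a1 1) (by simp [a2]) (by simp [a2]) (this 0) (this 1)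
    exact absurd (a5 x y k1 fun j => dvd_add ((this 0 j).mul_left x) ((this 1 j).mul_left y)) k2

end

/-- a stage: module of coordinates for a finite set of primes, with the classes -/
structure Stg (O : Type) [CommRing O] where
  ι : Type
  [fι : Fintype ι]
  [dι : DecidableEq ι]
  X : Type
  [aX : AddCommGroup X]
  [mX : Module O X]
  f : ι × Fin 2 → X
  s : ι × Fin 2 → X
  t : X
  κ : Finset ι → X →ₗ[O] O

attribute [instance] Stg.fι Stg.dι Stg.aX Stg.mX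

variable {O : Type} [CommRing O]

structure Stg.Ok (p : Stg O) (D b : O) : Prop extends Ok0 p.t p.f p.s D b where
  ks : ∀ m l i, l ∉ m → p.κ m (p.s (l, i)) = 0
  kf : ∀ m l i, l ∈ m → p.κ m (p.f (l, i)) = 0
  r1 : ∀ m l, l ∉ m → p.κ (insert l m) (p.s (l, 1)) = p.κ m (p.f (l, 0))
  r0 : ∀ m l, l ∉ m → p.κ (insert l m) (p.s (l, 0)) = - p.κ m (p.f (l, 1))
  dv : ∀ m, b ∣ p.κ m p.t

/-- the part used by the walk -/
structure Stg.Es (p : Stg O) : Prop where
  iso : Iso O p.t p.f p.s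
  ks : ∀ m l i, l ∉ m → p.κ m (p.s (l, i)) = 0
  kf : ∀ m l i, l ∈ m → p.κ m (p.f (l, i)) = 0
  r1 : ∀ m l, l ∉ m → p.κ (insert l m) (p.s (l, 1)) = p.κ m (p.f (l, 0))
  r0 : ∀ m l, l ∉ m → p.κ (insert l m) (p.s (l, 0)) = - p.κ m (p.f (l, 1))

theorem Stg.Ok.es {p : Stg O} {D b : O} (h : p.Ok D b) : p.Es := ⟨h.iso, h.ks, h.kf, h.r1, h.r0⟩

/-- `q` has one more prime than `p` -/
structure Ext (p q : Stg O) where
  e : Option p.ι ≃ q.ι
  π : q.X →ₗ[O] p.X
  t : π q.t = p.t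
  f : ∀ l i, π (q.f (e (some l), i)) = p.f (l, i)
  s : ∀ l i, π (q.s (e (some l), i)) = p.s (l, i)
  z : ∀ i, π (q.s (e none, i)) = 0
  κ : ∀ m, q.κ (m.image fun l => e (some l)) = p.κ m ∘ₗ π
  int : ∀ (a : O) (h : q.X →ₗ[O] O), h q.t = 0 → (∀ l i, a ∣ h (q.f (e (some l), i))) →
    (∀ j, a ∣ h (q.s j)) → ∀ i, a ∣ h (q.f (e none, i))

namespace Kv

inductive Reach (p : Stg O) : Finset p.ι → Prop
  | nil : Reach p ∅
  | cons (m l i) : Reach p m → l ∉ m → p.κ m (p.f (l, i)) ≠ 0 → Reach p (insert l m)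

theorem Reach.ext {p q : Stg O} (E : Ext p q) {m} (h : Reach p m) :
    Reach q (m.image fun l => E.e (some l)) := by
  induction h with
  | nil => exact .nil
  | cons m l i _ h1 h2 ih =>
    rw [Finset.image_insert]
    exact .cons _ _ i ih (by simpa using h1) (by rwa [E.κ, LinearMap.comp_apply, E.f])

def cm {ι : Type} [DecidableEq ι] (m : Finset ι) (j : ι × Fin 2) : Bool := decide (j.1 ∈ m)

def sg (p : Stg O) : p.X := ∑ j, p.κ ∅ (p.f j) • p.s j

variable {p : Stg O} (h : p.Es)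
include h

theorem rel2 {m l} (hl : l ∉ m) (i : Fin 2) :
    p.κ (insert l m) (p.s (l, i.rev)) ^ 2 = p.κ m (p.f (l, i)) ^ 2 := by
  fin_cases i
  · exact congrArg (· ^ 2) (h.r1 m l hl)
  · exact (congrArg (· ^ 2) (h.r0 m l hl)).trans (neg_sq _)

variable [IsDomain O]

theorem Reach.ne {m} (r : Reach p m) (h0 : p.κ ∅ p.t ≠ 0) :
    p.κ m p.t ≠ 0 ∨ ∃ j, p.κ m (p.s j) ≠ 0 := by
  cases r with
  | nil => exact .inl h0
  | cons m l i _ h1 h2 =>
    refine .inr ⟨(l, i.rev), fun e => h2 ?_⟩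
    have := rel2 h h1 i
    rw [e] at this
    exact pow_eq_zero_iff (two_ne_zero) |>.1 (by simpa using this.symm)

variable (h0 : p.κ ∅ p.t ≠ 0)
include h0

theorem hB (g g' : p.X →ₗ[O] O) : p.κ ∅ p.t * ∑ j, (g (p.f j) * g' (p.s j) + g (p.s j) * g' (p.f j)) =
    g p.t * g' (sg p) + g (sg p) * g' p.t := by
  have := h.iso.pt (g := p.κ ∅ p.t • g - g p.t • p.κ ∅) (g' := p.κ ∅ p.t • g' - g' p.t • p.κ ∅)
    (by simp [mul_comm]) (by simp [mul_comm])
  have k : ∀ j, p.κ ∅ (p.s j) = 0 := fun j => h.ks _ _ _ (by simp)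
  refine mul_left_cancel₀ h0 ?_
  rw [← sub_eq_zero, ← this]
  simp only [sg, map_sum, map_smul, smul_eq_mul, Finset.mul_sum, Finset.sum_mul, mul_add,
    ← Finset.sum_add_distrib, ← Finset.sum_sub_distrib, LinearMap.sub_apply, LinearMap.smul_apply, k]
  exact Finset.sum_congr rfl fun j _ => by ring

theorem sig (h2 : (2 : O) ≠ 0) (m : Finset p.ι) : p.κ m (sg p) = 0 := by
  induction m using Finset.strongInduction with
  | H m ih =>
  have z : ∑ a ∈ m.powerset, ∑ j, (p.κ a (p.f j) * p.κ (m \ a) (p.s j) +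
      p.κ a (p.s j) * p.κ (m \ a) (p.f j)) = 0 := by
    simp only [Fintype.sum_prod_type]
    rw [Finset.sum_comm]
    refine Finset.sum_eq_zero fun l _ => ?_
    by_cases hl : l ∈ m
    · obtain ⟨m', hl', rfl⟩ : ∃ m', l ∉ m' ∧ m = insert l m' :=
        ⟨m.erase l, by simp, (Finset.insert_erase hl).symm⟩
      rw [Finset.sum_powerset_insert hl', ← Finset.sum_add_distrib]
      refine Finset.sum_eq_zero fun a ha => ?_
      have a1 : l ∉ a := fun e => hl' (Finset.mem_powerset.1 ha e)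
      have a2 : l ∉ m' \ a := by simp [hl']
      rw [Finset.insert_sdiff_of_notMem _ a1, Finset.insert_sdiff_insert,
        Finset.sdiff_insert_of_notMem hl']
      simp only [Fin.sum_univ_two, h.r0 _ _ a1, h.r1 _ _ a1, h.r0 _ _ a2, h.r1 _ _ a2, h.ks _ _ _ a1,
        h.ks _ _ _ a2]
      ring
    · refine Finset.sum_eq_zero fun a ha => Finset.sum_eq_zero fun i _ => ?_
      rw [h.ks a l i fun e => hl (Finset.mem_powerset.1 ha e), h.ks (m \ a) l i (by simp [hl])]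
      simp
  have := congrArg (p.κ ∅ p.t * ·) z
  simp only [mul_zero] at this
  rw [Finset.mul_sum, Finset.sum_congr rfl fun a _ => hB h h0 _ _, Finset.sum_add_distrib,
    Finset.sum_eq_single ∅, Finset.sum_eq_single m] at this
  · have e : 2 * p.κ ∅ p.t * p.κ m (sg p) = 0 := by
      simp only [Finset.sdiff_empty, Finset.sdiff_self] at this; linear_combination this
    simpa [h2, h0] using e
  · intro a ha e
    rw [ih a (lt_of_le_of_ne (Finset.mem_powerset.1 ha) e), zero_mul]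
  · simp
  · intro a ha e
    rw [ih (m \ a) (Finset.sdiff_ssubset (Finset.mem_powerset.1 ha) (Finset.nonempty_iff_ne_empty.2 e)),
      mul_zero]
  · simp

omit h h0 [IsDomain O] in
def xs (p : Stg O) (m : Finset p.ι) (o : Option (p.ι × Fin 2)) : p.X := o.elim (sg p) (ch (cm m) p.f p.s)
omit h h0 [IsDomain O] in
def ys (p : Stg O) (m : Finset p.ι) (o : Option (p.ι × Fin 2)) : p.X := o.elim p.t (ch (cm m) p.s p.f)
omit h h0 [IsDomain O] in
def wt (p : Stg O) (o : Option (p.ι × Fin 2)) : O := o.elim (-1) fun _ => p.κ ∅ p.t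

variable (φ : p.X →ₗ[O] (Option (p.ι × Fin 2) → O))

omit h h0 [IsDomain O] in
noncomputable def dl (m : Finset p.ι) (o : Option (p.ι × Fin 2)) : O :=
  (Pi.basisFun O _).det (update (φ ∘ xs p m) o (φ (ys p m o)))

omit h h0 [IsDomain O] in
theorem dl_none (m) : dl φ m none =
    (Pi.basisFun O _).det (φ ∘ fun o : Option _ => o.elim p.t (ch (cm m) p.f p.s)) := by
  unfold dl; congr 1; ext1 (_ | j) <;> simp [xs, ys]

theorem pol (m) : Pol (wt p) (φ ∘ xs p m) (φ ∘ ys p m) := fun g g' => by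
  have := hB h h0 (g ∘ₗ φ) (g' ∘ₗ φ)
  rw [Fintype.sum_option]
  have e : ∑ j, wt p (some j) * (g ((φ ∘ xs p m) (some j)) * g' ((φ ∘ ys p m) (some j)) +
      g ((φ ∘ ys p m) (some j)) * g' ((φ ∘ xs p m) (some j))) = p.κ ∅ p.t *
      ∑ j, ((g ∘ₗ φ) (p.f j) * (g' ∘ₗ φ) (p.s j) + (g ∘ₗ φ) (p.s j) * (g' ∘ₗ φ) (p.f j)) := by
    rw [Finset.mul_sum]
    refine Finset.sum_congr rfl fun j _ => ?_
    simp only [wt, xs, ys, ch, Function.comp, Option.elim_some, LinearMap.comp_apply]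
    split <;> ring
  rw [e, this]; simp only [wt, xs, ys, Function.comp, Option.elim_none, LinearMap.comp_apply]; ring

omit h0 [IsDomain O] in
theorem kx (m j) : p.κ m (ch (cm m) p.f p.s j) = 0 := by
  by_cases e : j.1 ∈ m
  · simpa [ch, cm, e] using h.kf m j.1 j.2 e
  · simpa [ch, cm, e] using h.ks m j.1 j.2 e

variable (h2 : (2 : O) ≠ 0) (hφ : ∀ g : p.X →ₗ[O] O, ∃ g', g = g' ∘ₗ φ)
include h2 hφ

theorem key (m i j) : dl φ m i * (wt p j * p.κ m (ys p m j) ^ 2) =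
    dl φ m j * (wt p i * p.κ m (ys p m i) ^ 2) := by
  obtain ⟨g, hg⟩ := hφ (p.κ m)
  have e : ∀ z, g (φ z) = p.κ m z := fun z => by rw [hg]; rfl
  have := (pol h h0 φ m).key (Pi.basisFun O _) (κ := g) (by
    rintro (_ | j)
    · exact (e _).trans (sig h h0 h2 m)
    · exact (e _).trans (kx h m j)) i j
  simpa only [Function.comp_apply, e, dl] using this

theorem Reach.eq {m} (r : Reach p m) (i) :
    dl φ m i * (-p.κ ∅ p.t ^ 2) = dl φ ∅ none * (wt p i * p.κ m (ys p m i) ^ 2) := by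
  induction r generalizing i with
  | nil => simpa [wt, ys] using key h h0 φ h2 hφ ∅ i none
  | cons m l a _ h1 h3 ih =>
    have e1 : dl φ (insert l m) (some (l, a.rev)) = dl φ m (some (l, a)) := by
      unfold dl; congr 1
      ext1 (_ | ⟨l', a'⟩)
      · simp [xs]
      by_cases e : l' = l
      · subst e; fin_cases a <;> fin_cases a' <;> simp [xs, ys, ch, cm, h1]
      · simp [xs, ch, cm, e]
    have e2 : p.κ (insert l m) (ys p (insert l m) (some (l, a.rev))) ^ 2 = p.κ m (p.f (l, a)) ^ 2 := by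
      simpa [ys, ch, cm] using rel2 h h1 a
    have e3 := ih (some (l, a))
    have e4 := key h h0 φ h2 hφ (insert l m) i (some (l, a.rev))
    rw [e1, e2] at e4
    simp only [wt, ys, ch, cm, h1, Option.elim_some, decide_false, Bool.false_eq_true, if_false] at e3
    refine mul_left_cancel₀ (mul_ne_zero h0 (pow_ne_zero 2 h3)) ?_
    have e5 : wt p (some (l, a.rev)) = p.κ ∅ p.t := rfl
    rw [e5] at e4
    linear_combination (-p.κ ∅ p.t ^ 2) * e4 +
      (wt p i * p.κ (insert l m) (ys p (insert l m) i) ^ 2) * e3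

end Kv
open Kv

variable [IsDomain O] [IsDiscreteValuationRing O] {D b ϖ : O}

theorem Kv.low {p : Stg O} (h : p.Ok D b) (hD : D ≠ 0) (hb : b ≠ 0) (h2 : (2 : O) ≠ 0)
    (h0 : p.κ ∅ p.t ≠ 0) {m} (r : Reach p m)
    (k : finrank (ResidueField O) ↥(Gb p.t p.f p.s b ⊓ Lb _ (cm m)) < 2) : D ∣ p.κ ∅ p.t ^ 2 := by
  obtain ⟨φ, τ, a1, a2, a3⟩ := h.om hD
  obtain ⟨D', e1, e2⟩ := h.pr
  have c0 : ch (cm ∅) p.f p.s = p.s := by ext j; simp [ch, cm]
  have P0 := a3 p.s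
  rw [← c0, ← dl_none, c0] at P0
  have d0 : dl φ ∅ none ≠ 0 := fun e => e1.ne_zero_iff.2 hD (by simpa [e] using P0.dvd e2.dt)
  have E := r.eq h.es h0 φ h2 a2
  rcases Nat.lt_succ_iff_lt_or_eq.1 k with k | k
  · have k' : Gb p.t p.f p.s b ⊓ Lb _ (cm m) = ⊥ := Submodule.finrank_eq_zero.1 (Nat.lt_one_iff.1 k)
    obtain ⟨x, hx⟩ := ((h.res hD hb).2 _ k').2 _ (a3 _)
    rw [← dl_none] at hx
    obtain ⟨y, hy⟩ := h.dv m
    refine e1.dvd'.trans ((e2.dvd P0.dt).trans ⟨x * y ^ 2, ?_⟩)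
    have E0 := E none
    simp only [wt, ys, Option.elim_none, hy] at E0
    refine mul_left_cancel₀ (a := τ * dl φ m none) (fun e => pow_ne_zero 2 hb (by rw [hx, e, zero_mul])) ?_
    linear_combination (-τ) * E0 + (τ * dl φ ∅ none * y ^ 2) * hx
  · obtain ⟨j, hj⟩ := one_swap (h.iso.gb hb) k
    have hA := ((h.res hD hb).2 _ hj).1
    have z1 : p.κ m p.t = 0 := by
      have := E none
      rw [dl_none, adj0 h.iso h2 a1 hA] at this
      simpa [d0, wt, ys] using this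
    have z2 : p.κ m (ch (cm m) p.s p.f j) = 0 := by
      rcases ((pol h.es h0 φ m).swap (some j)).adj (Pi.basisFun O _) h2 none (by simp [wt]) with e | e
      · have := E (some j)
        rw [show dl φ m (some j) = 0 from e] at this
        simpa [d0, wt, ys, h0] using this
      · obtain ⟨g, g0, g1⟩ := (det_eq_zero_iff _ _).1 e
        refine absurd (LinearMap.ext fun z => ?_) g0
        obtain ⟨z, rfl⟩ := a1 z
        refine LinearMap.congr_fun (hA (g ∘ₗ φ) (by simpa [ys] using g1 none) fun i => ?_) z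
        have := g1 (some i)
        rw [ch_not]
        by_cases e' : i = j
        · subst e'; simpa [ys] using this
        · simpa [update_of_ne e', e', xs] using this
    have : p.κ m = 0 := hA _ z1 fun i => by
      rw [ch_not]
      by_cases e' : i = j
      · subst e'; simpa using z2
      · simpa [update_of_ne e'] using kx h.es m i
    simpa [this] using r.ne h.es h0

/-- the Chebotarev hypothesis -/
def CH (𝒮 : Set (Stg O)) (b ϖ : O) : Prop :=
  ∀ p ∈ 𝒮, ∀ (m : Finset p.ι) (g g' : p.X →ₗ[O] O), g p.t = 0 → g' p.t = 0 →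
    (∀ j, b ∣ g (p.f j) ∧ b ∣ g (p.s j) ∧ b ∣ g' (p.f j) ∧ b ∣ g' (p.s j)) →
    (∀ x y : O, (∀ j, b * ϖ ∣ (x • g + y • g') (p.f j)) → (∀ j, b * ϖ ∣ (x • g + y • g') (p.s j)) →
      ϖ ∣ x ∧ ϖ ∣ y) → (p.κ m p.t ≠ 0 ∨ ∃ j, p.κ m (p.s j) ≠ 0) →
    ∃ q ∈ 𝒮, ∃ E : Ext p q, (¬ b ^ 2 * ϖ ∣ g (E.π (q.f (E.e none, 0))) * g' (E.π (q.f (E.e none, 1))) -
      g (E.π (q.f (E.e none, 1))) * g' (E.π (q.f (E.e none, 0)))) ∧
      ∃ i, p.κ m (E.π (q.f (E.e none, i))) ≠ 0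

theorem kol (𝒮 : Set (Stg O)) (ok : ∀ p ∈ 𝒮, p.Ok D b) (hD : D ≠ 0) (hb : b ≠ 0) (h2 : (2 : O) ≠ 0)
    (hϖ : Irreducible ϖ) (H : CH 𝒮 b ϖ) {p : Stg O} (hp : p ∈ 𝒮) (h0 : p.κ ∅ p.t ≠ 0) :
    D ∣ p.κ ∅ p.t ^ 2 := by
  suffices ∀ n, ∀ p ∈ 𝒮, p.κ ∅ p.t ≠ 0 → ∀ m, Reach p m →
      finrank (ResidueField O) ↥(Gb p.t p.f p.s b ⊓ Lb _ (cm m)) = n → D ∣ p.κ ∅ p.t ^ 2 from
    this _ p hp h0 ∅ .nil rfl
  intro n
  induction n using Nat.strong_induction_on with
  | h n ih =>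
  intro p hp h0 m r hn
  rcases Nat.lt_or_ge n 2 with k | k
  · exact low (ok p hp) hD hb h2 h0 r (hn ▸ k)
  obtain ⟨g, u, v, a1, a2, a3, a4, a5⟩ := two_pts hϖ hb (hn ▸ k)
  obtain ⟨q, hq, E, k1, i, k2⟩ := H p hp m (g 0) (g 1) (a1 0) (a1 1) (by simp [a2, a3]) a5
    (r.ne (ok p hp).es h0)
  have e0 : q.κ ∅ q.t = p.κ ∅ p.t := by simpa [E.t] using LinearMap.congr_fun (E.κ ∅) q.t
  let e : (p.ι × Fin 2) ⊕ Fin 2 ≃ q.ι × Fin 2 :=
    ((Equiv.sumComm _ _).trans optionProdEquiv.symm).trans (E.e.prodCongr (Equiv.refl _))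
  have x0 : Ex0 p.t p.f p.s q.t q.f q.s e E.π :=
    ⟨E.t, fun j => E.f _ _, fun j => E.s _ _, E.z, fun a h h1 h3 => E.int a h h1 fun l i => h3 (l, i)⟩
  refine e0 ▸ ih _ (hn ▸ ?_) q hq (e0 ▸ h0) _ (.cons _ (E.e none) i (r.ext E) (by simp)
    (by rwa [E.κ])) rfl
  exact x0.drop hb (ok p hp).iso (ok q hq).iso ((ok p hp).res hD hb).1 hϖ
    (fun j => by simp [e, cm]) (fun j => by simp [e, cm]) g u v a1 a2 a3 a4 (by rwa [det_fin_two])

end Vale.Agent.P004F.Alg
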