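import Vale.Agent.P004F.Alg.Cyc

/-! The Kolyvagin bound with one cyclic defect and no divisibility hypothesis. -/

namespace Vale.Agent.P004F.Alg
open Submodule Set Matrix Function Module IsLocalRing Kv

variable {O : Type} [CommRing O]

structure Stg.OkB (p : Stg O) (D b : O) : Prop extends p.Es where
  fin : Module.Finite O p.X
  rk : Fintype.card (p.ι × Fin 2) + 1 ≤ finrank O p.X
  pr : ∃ D', Associated D' D ∧ Pr (p.X ⧸ span O (insert p.t (range p.s))) D'
  cy : ∃ η x, Cy p.t p.f p.s b η x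

theorem Stg.OkB.ok0 {p : Stg O} {D b : O} (h : p.OkB D b) : Ok0 p.t p.f p.s D b :=
  ⟨h.fin, h.rk, h.iso, h.pr, h.cy.choose_spec.choose_spec.nu⟩

/-- integrality at the new prime for points with `t` arbitrary -/
def Ext.Int {p q : Stg O} (E : Ext p q) : Prop :=
  ∀ (a : O) (h : q.X →ₗ[O] O), a ∣ h q.t → (∀ l i, a ∣ h (q.f (E.e (some l), i))) →
    (∀ j, a ∣ h (q.s j)) → ∀ i, a ∣ h (q.f (E.e none, i))

/-- the Chebotarev hypothesis at finite level -/
def CHB (𝒮 : Set (Stg O)) (b ϖ : O) : Prop :=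
  ∀ p ∈ 𝒮, ∀ (m : Finset p.ι) (g g' : p.X →ₗ[O] O ⧸ Ideal.span {b * ϖ}),
    (∀ z ∈ NN O p.t p.f p.s, ϖ • g z = 0 ∧ ϖ • g' z = 0) →
    (∀ x y : O, (∀ z ∈ NN O p.t p.f p.s, x • g z + y • g' z = 0) → ϖ ∣ x ∧ ϖ ∣ y) →
    (p.κ m p.t ≠ 0 ∨ ∃ j, p.κ m (p.s j) ≠ 0) →
    ∃ q ∈ 𝒮, ∃ E : Ext p q, E.Int ∧ (∀ x y : O, (∀ i, x • g (E.π (q.f (E.e none, i))) +
      y • g' (E.π (q.f (E.e none, i))) = 0) → ϖ ∣ x ∧ ϖ ∣ y) ∧
      ∃ i, p.κ m (E.π (q.f (E.e none, i))) ≠ 0

namespace Kb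
section
variable {X J : Type} [AddCommGroup X] [Module O X] [Fintype J] {t η x : X} {f s : J → X} {D b : O}

def sm (r : X →ₗ[O] O) (t : X) (f s : J → X) : X :=
  ∑ j, (r (s j) • f j + r (f j) • s j) - (∑ j, r (f j) * r (s j)) • t

def fP (r : X →ₗ[O] O) (t : X) (f s : J → X) (o : Option J) : X × O := (o.elim (-sm r t f s) f, 0)

def sP (O : Type) [CommRing O] (t : X) (s : J → X) (o : Option J) : X × O := (o.elim t s, 0)

variable {r : X →ₗ[O] O}

omit [Fintype J] in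
theorem mt : t ∈ NN O t f s := subset_span (.inl rfl)
omit [Fintype J] in
theorem mf (j) : f j ∈ NN O t f s := subset_span (.inr (.inl ⟨j, rfl⟩))
omit [Fintype J] in
theorem ms (j) : s j ∈ NN O t f s := subset_span (.inr (.inr ⟨j, rfl⟩))

theorem sm_mem : sm r t f s ∈ NN O t f s :=
  sub_mem (sum_mem fun j _ => add_mem (smul_mem _ _ (mf j)) (smul_mem _ _ (ms j))) (smul_mem _ _ mt)

theorem sm_eq (h : Iso O t f s) (hr : r t = 1) (M : Type) [AddCommGroup M] [Module O M]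
    (β : X →ₗ[O] X →ₗ[O] M) :
    ∑ j, (β (f j) (s j) + β (s j) (f j)) = β t (sm r t f s) + β (sm r t f s) t := by
  have := h M (β.compl₁₂ (.id - r.smulRight t) (.id - r.smulRight t)) (by ext; simp [hr]) (by simp [hr])
  rw [← sub_eq_zero, ← this]
  simp only [sm, map_sub, map_sum, map_add, map_smul, LinearMap.sub_apply, LinearMap.sum_apply,
    LinearMap.add_apply, LinearMap.smul_apply, LinearMap.compl₁₂_apply, LinearMap.id_apply,
    LinearMap.smulRight_apply, Finset.sum_smul, ← Finset.sum_sub_distrib, ← Finset.sum_add_distrib]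
  exact Finset.sum_congr rfl fun j _ => by module

theorem prP {I : Type} (z : I → X) {d : O} (h : Pr (X ⧸ span O (range z)) d) :
    Pr ((X × O) ⧸ span O (insert ((0, 1) : X × O) (range fun i => (z i, 0)))) d := by
  have hs : Surjective ((span O (range z)).mkQ ∘ₗ LinearMap.fst O X O) :=
    (mkQ_surjective _).comp Prod.fst_surjective
  refine h.equiv (((LinearMap.quotKerEquivOfSurjective _ hs).symm).trans (quotEquivOfEq _ _ ?_))
  refine le_antisymm ?_ (span_le.2 ?_)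
  · rintro ⟨y, a⟩ hy
    have : span O (range z) ≤ comap (LinearMap.inl O X O) (span O (range fun i => (z i, 0))) :=
      span_le.2 (by rintro _ ⟨i, rfl⟩; exact subset_span ⟨i, rfl⟩)
    exact mem_span_insert.2 ⟨a, (y, 0), this (by simpa using hy), by simp⟩
  · rintro _ (rfl | ⟨i, rfl⟩)
    · simp
    · simpa using subset_span (R := O) (mem_range_self (f := z) i)

theorem memP {z : X} (hz : z ∈ NN O t f s) (a : O) :
    (z, a) ∈ NN O ((0, 1) : X × O) (fP r t f s) (sP O t s) := by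
  have := NN_le (N := comap (LinearMap.inl O X O) (NN O ((0, 1) : X × O) (fP r t f s) (sP O t s)))
    (ms none) (fun j => mf (some j)) (fun j => ms (some j)) hz
  simpa using add_mem (mem_comap.1 this) (smul_mem _ a mt)

theorem cyP (c : Cy t f s b η x) : Cy ((0, 1) : X × O) (fP r t f s) (sP O t s) b (η, 0) (x, 0) := by
  refine ⟨eq_top_iff.2 fun ⟨z, a⟩ _ => ?_, by simpa using memP c.mul 0, memP c.mem 0,
    c.tor.imp fun a h => ⟨h.1, by simp [h.2]⟩, fun a h => c.ord a ?_⟩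
  · obtain ⟨n, hn, e, rfl⟩ := c.dec z
    exact mem_sup.2 ⟨_, memP hn a, e • (η, 0), smul_mem _ _ (mem_span_singleton_self _), by simp⟩
  · obtain ⟨e, he⟩ := mem_span_singleton.1 h
    have := congrArg Prod.fst he
    simp only [Prod.smul_mk, smul_zero] at this
    exact this ▸ zero_mem _

theorem okP [IsDomain O] [DecidableEq J] (h : Ok0 t f s D b) (c : Cy t f s b η x) (hr : r t = 1) :
    Ok0 ((0, 1) : X × O) (fP r t f s) (sP O t s) D b := by
  have := h.fin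
  refine ⟨inferInstance, ?_, fun M _ _ β _ _ => ?_, h.pr.imp fun d hd => ⟨hd.1, prP _ ?_⟩, (cyP c).nu⟩
  · have k := (LinearMap.range (LinearMap.inl O X O)).finrank_quotient_add_finrank
    rw [LinearMap.finrank_range_of_inj LinearMap.inl_injective, LinearMap.range_inl,
      (LinearMap.quotKerEquivOfSurjective _ Prod.snd_surjective).finrank_eq, finrank_self] at k
    have := h.rk
    rw [Fintype.card_option]; omega
  · have := sm_eq h.iso hr M (β.compl₁₂ (.inl O X O) (.inl O X O))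
    simp only [LinearMap.compl₁₂_apply, LinearMap.inl_apply] at this
    have e : ((-sm r t f s, 0) : X × O) = -(sm r t f s, 0) := by simp
    simp only [Fintype.sum_option, fP, sP, Option.elim_none, Option.elim_some, this, e, map_neg,
      LinearMap.neg_apply]
    abel
  · rw [range_elim]; exact hd.2

theorem om' [IsDomain O] [IsDiscreteValuationRing O] [DecidableEq J] (h : Ok0 t f s D b) (hD : D ≠ 0) :
    ∃ (φ : X →ₗ[O] (Option J → O)) (τ : O), (∀ g : X →ₗ[O] O, ∃ g' : (Option J → O) →ₗ[O] O,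
      g = g' ∘ₗ φ) ∧ ∀ z : Option J → X, Pr (X ⧸ span O (range z)) (τ * (Pi.basisFun O _).det (φ ∘ z)) := by
  have := h.fin
  have r : finrank O (X ⧸ torsion O X) = Fintype.card (Option J) := by
    rw [finrank_quotient_eq_of_le_torsion le_rfl, h.rank hD]
  let e := ((finBasisOfFinrankEq O _ r).reindex (Fintype.equivFin _).symm).equivFun
  have hs : Surjective (e.toLinearMap ∘ₗ mkQ _) := e.surjective.comp (mkQ_surjective _)
  obtain ⟨τ, -, hτ⟩ := ex_pr (O := O) (Y := LinearMap.ker (e.toLinearMap ∘ₗ mkQ _)) fun z => by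
    obtain ⟨a, ha⟩ : z.1 ∈ torsion O X := by simpa using z.2
    exact ⟨a, Subtype.ext ha⟩
  refine ⟨_, τ, fun g => ⟨(torsion O _).liftQ g (fun z ⟨a, ha⟩ => ?_) ∘ₗ e.symm.toLinearMap,
    by ext; simp⟩, fun x => hτ.ext _ hs _ _⟩
  have := congrArg g ha
  simpa [Submonoid.smul_def, nonZeroDivisors.coe_ne_zero a] using this

end

variable [IsDomain O] [IsDiscreteValuationRing O] {D b ϖ : O}

theorem ex_io (hb : b ≠ 0) (hϖ : Irreducible ϖ) :
    ∃ ι : ResidueField O →ₗ[O] O ⧸ Ideal.span {b * ϖ}, Injective ι ∧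
      ∀ a, ι (residue O a) = (Ideal.span {b * ϖ}).mkQ (b * a) := by
  refine ⟨mapQ (maximalIdeal O) _ (LinearMap.lsmul O O b) fun a ha => ?_,
    (injective_iff_map_eq_zero _).2 fun a ha => ?_, fun a => rfl⟩
  · rw [hϖ.maximalIdeal_eq, Ideal.mem_span_singleton] at ha
    exact Ideal.mem_span_singleton.2 (mul_dvd_mul_left b ha)
  · obtain ⟨a, rfl⟩ := residue_surjective a
    rw [residue_eq_zero_iff, hϖ.maximalIdeal_eq, Ideal.mem_span_singleton, ← mul_dvd_mul_iff_left hb,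
      ← Ideal.mem_span_singleton]
    exact (Quotient.mk_eq_zero _).1 ha

theorem res0 (hϖ : Irreducible ϖ) {x : O} : residue O x = 0 ↔ ϖ ∣ x := by
  rw [residue_eq_zero_iff, hϖ.maximalIdeal_eq, Ideal.mem_span_singleton]

theorem ind_det (hϖ : Irreducible ϖ) {M : Type} [AddCommGroup M] [Module O M]
    (ι : ResidueField O →ₗ[O] M) {a a' : Fin 2 → ResidueField O}
    (h : ∀ x y : O, (∀ i, x • ι (a i) + y • ι (a' i) = 0) → ϖ ∣ x ∧ ϖ ∣ y) :
    (!![a 0, a 1; a' 0, a' 1]).det ≠ 0 := fun e => by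
  obtain ⟨v, hv, e⟩ := exists_vecMul_eq_zero_iff.2 e
  obtain ⟨x, hx⟩ := residue_surjective (v 0)
  obtain ⟨y, hy⟩ := residue_surjective (v 1)
  obtain ⟨h1, h2⟩ := h x y fun i => by
    rw [← map_smul, ← map_smul, ← map_add, Algebra.smul_def, Algebra.smul_def,
      ResidueField.algebraMap_eq, hx, hy]
    have := congrFun e i
    fin_cases i <;> simp [vecMul, dotProduct] at this <;> simp [this]
  exact hv (by ext i; fin_cases i; exacts [hx ▸ (res0 hϖ).2 h1, hy ▸ (res0 hϖ).2 h2])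

theorem ch_of (hb : b ≠ 0) (hϖ : Irreducible ϖ) {𝒮 : Set (Stg O)} (H : CHB 𝒮 b ϖ) : CH 𝒮 b ϖ := by
  intro p hp m g g' a1 a2 a3 a4 a5
  obtain ⟨ι, -, hι⟩ := ex_io hb hϖ
  have z : ∀ a, (Ideal.span {b * ϖ}).mkQ a = 0 ↔ b * ϖ ∣ a := fun a =>
    (Quotient.mk_eq_zero _).trans Ideal.mem_span_singleton
  obtain ⟨q, hq, E, -, k1, k2⟩ := H p hp m (mkQ _ ∘ₗ g) (mkQ _ ∘ₗ g') (fun w hw => by
    simp only [LinearMap.comp_apply, ← map_smul, z, smul_eq_mul, mul_comm ϖ]
    exact ⟨mul_dvd_mul_right (dvd_NN (by simp [a1]) (by simp [a3]) (by simp [a3]) hw) _,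
      mul_dvd_mul_right (dvd_NN (by simp [a2]) (by simp [a3]) (by simp [a3]) hw) _⟩)
    (fun x y h => a4 x y (fun j => (z _).1 (by
      simpa only [LinearMap.add_apply, LinearMap.smul_apply, map_add, map_smul,
        LinearMap.comp_apply] using h _ (mf j)))
      fun j => (z _).1 (by
      simpa only [LinearMap.add_apply, LinearMap.smul_apply, map_add, map_smul,
        LinearMap.comp_apply] using h _ (ms j))) a5
  refine ⟨q, hq, E, fun e => ?_, k2⟩
  have d : ∀ g : p.X →ₗ[O] O, g p.t = 0 → (∀ j, b ∣ g (p.f j)) → (∀ j, b ∣ g (p.s j)) →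
      ∀ i, b ∣ g (E.π (q.f (E.e none, i))) := fun g h1 h2 h3 =>
    E.int b (g ∘ₗ E.π) (by simp [E.t, h1]) (by simp [E.f, h2]) fun ⟨l, i⟩ => by
      obtain ⟨_ | l, rfl⟩ := E.e.surjective l <;> simp [E.s, E.z, h3]
  choose u hu using d g a1 (by simp [a3]) (by simp [a3])
  choose u' hu' using d g' a2 (by simp [a3]) (by simp [a3])
  refine ind_det hϖ ι (a := residue O ∘ u) (a' := residue O ∘ u') (by
    simpa only [Function.comp, hι, ← hu, ← hu', LinearMap.comp_apply] using k1) ?_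
  simp only [det_fin_two_of, Function.comp, ← map_mul, ← map_sub, res0 hϖ]
  rw [← mul_dvd_mul_iff_left (pow_ne_zero 2 hb)]
  convert e using 1
  simp only [hu, hu']; ring

/-- the choice of coordinates in the enlarged picture -/
def cP {ι : Type} [DecidableEq ι] (m : Finset ι) (o : Option (ι × Fin 2)) : Bool := o.elim true (cm m)

/-- the residual group in the enlarged picture -/
noncomputable abbrev Gl (p : Stg O) (r : p.X →ₗ[O] O) (b : O) (m : Finset p.ι) :=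
  Gb ((0, 1) : p.X × O) (fP r p.t p.f p.s) (sP O p.t p.s) b ⊓ Lb _ (cP m)

variable {p : Stg O} (h : p.OkB D b) (hD : D ≠ 0) (hb : b ≠ 0) (h2 : IsUnit (2 : O))
  (h0 : p.κ ∅ p.t ≠ 0) {r : p.X →ₗ[O] O} (hr : r p.t = 1) {m : Finset p.ι}
include h h2 h0 hr

omit [IsDiscreteValuationRing O] in
theorem sg_eq : sg p = p.κ ∅ p.t • sm r p.t p.f p.s := by
  have k : ∀ j, p.κ ∅ (p.s j) = 0 := fun j => h.ks _ _ _ (by simp)
  have := sm_eq h.iso hr _ ((LinearMap.lsmul O p.X) ∘ₗ p.κ ∅)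
  simp only [LinearMap.comp_apply, LinearMap.lsmul_apply, k, zero_smul, add_zero] at this
  have e := congrArg (p.κ ∅) this
  simp only [map_sum, map_smul, map_add, k, smul_eq_mul, mul_zero, Finset.sum_const_zero] at e
  have e' : 2 * p.κ ∅ p.t * p.κ ∅ (sm r p.t p.f p.s) = 0 := by linear_combination -e
  rw [sg, this, (mul_eq_zero.1 e').resolve_left (mul_ne_zero h2.ne_zero h0), zero_smul, add_zero]

omit [IsDiscreteValuationRing O] in
theorem kP (o) : p.κ m (ch (cP m) (fP r p.t p.f p.s) (sP O p.t p.s) o).1 = 0 := by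
  rcases o with _ | j
  · have := sig h.toEs h0 h2.ne_zero m
    rw [sg_eq h h2 h0 hr, map_smul] at this
    simpa [ch, cP, fP, h0] using this
  · have := kx h.toEs m j
    unfold ch at this ⊢
    split <;> simp_all [cP, fP, sP]

include hD hb

theorem low (R : Reach p m) (k : finrank (ResidueField O) (Gl p r b m) = 1)
    (d : ∀ z ∈ NN O p.t p.f p.s, b ∣ p.κ m z) : D ∣ p.κ ∅ p.t ^ 2 := by
  obtain ⟨η, x, c⟩ := h.cy
  have oP := okP h.ok0 c hr
  obtain ⟨φ, τ, a2, a3⟩ := om' h.ok0 hD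
  obtain ⟨D', e1, e2⟩ := h.pr
  have c0 : ch (cm ∅) p.f p.s = p.s := by ext j; simp [ch, cm]
  have P0 := a3 fun o => o.elim p.t (ch (cm ∅) p.f p.s)
  rw [← dl_none, c0, range_elim] at P0
  obtain ⟨j, hj⟩ := one_swap (oP.iso.gb hb) k
  have E := R.eq h.toEs h0 φ h2.ne_zero a2 j
  let z := update (fun o : Option _ => o.elim (-sm r p.t p.f p.s) (ch (cm m) p.f p.s)) j (ys p m j)
  have ez : ch (update (cP m) j (!cP m j)) (fP r p.t p.f p.s) (sP O p.t p.s) = fun o => (z o, 0) := by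
    rw [ch_not]
    ext1 o
    by_cases e : o = j
    · subst e
      rcases o with _ | o <;> simp only [z, update_self, ys, ch, cP, fP, sP, Option.elim_none,
        Option.elim_some, if_true]
      split <;> simp [*]
    · rcases o with _ | o <;> simp only [z, update_of_ne e, ch, cP, fP, sP, Option.elim_none,
        Option.elim_some, if_true]
      split <;> simp [*]
  obtain ⟨w, hw⟩ := ((oP.res hD hb).2 _ hj).2 _ (ez ▸ prP z (a3 z))
  have E' : (Pi.basisFun O _).det (φ ∘ z) * p.κ ∅ p.t ^ 2 = dl φ ∅ none * p.κ m (ys p m j) ^ 2 := by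
    rcases j with _ | j
    · have : φ ∘ z = update (φ ∘ xs p m) none (φ (ys p m none)) := by
        ext1 (_ | o) <;> simp [z, xs]
      rw [this]
      simp only [wt, Option.elim_none, dl] at E ⊢
      linear_combination -E
    · have e : update (φ ∘ xs p m) (some j) (φ (ys p m (some j))) =
          update (φ ∘ z) none ((-p.κ ∅ p.t) • (φ ∘ z) none) := by
        ext1 (_ | o)
        · simp [z, xs, sg_eq h h2 h0 hr]
        · by_cases e : o = j <;> simp [z, xs, e]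
      rw [dl, e, AlternatingMap.map_update_smul, update_eq_self] at E
      simp only [wt, Option.elim_some, smul_eq_mul] at E
      exact mul_left_cancel₀ h0 (by linear_combination E)
  obtain ⟨y, hy⟩ := d (ys p m j) (by
    rcases j with _ | j
    · exact mt
    · simp only [ys, ch, Option.elim_some]; split
      exacts [ms j, mf j])
  refine e1.dvd'.trans ((e2.dvd P0.dt).trans ⟨w * y ^ 2, ?_⟩)
  rw [hy] at E'
  refine mul_left_cancel₀ (a := τ * (Pi.basisFun O _).det (φ ∘ z))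
    (fun e => pow_ne_zero 2 hb (by rw [hw, e, zero_mul])) ?_
  linear_combination τ * E' + (τ * dl φ ∅ none * y ^ 2) * hw

theorem nrm (hϖ : Irreducible ϖ) (hd : ϖ ∣ b) (R : Reach p m) :
    ∃ (g : p.X × O →ₗ[O] O) (u v : Option (p.ι × Fin 2) → O), g (0, 1) = 0 ∧
      (∀ j, g (fP r p.t p.f p.s j) = b * u j) ∧ (∀ j, g (sP O p.t p.s j) = b * v j) ∧
      (residue O ∘ u, residue O ∘ v) ∈ Lb _ (cP m) ∧ (residue O ∘ u, residue O ∘ v) ≠ 0 ∧
      ((∀ z ∈ NN O p.t p.f p.s, b ∣ p.κ m z) ∨ ∃ ρ : p.X × O →ₗ[O] O, ρ (0, 1) = 0 ∧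
        (residue O ∘ ρ ∘ fP r p.t p.f p.s, residue O ∘ ρ ∘ sP O p.t p.s) =
          (residue O ∘ u, residue O ∘ v)) := by
  obtain ⟨η, x, c⟩ := h.cy
  have oP := okP h.ok0 c hr
  let K := p.κ m ∘ₗ LinearMap.fst O p.X O
  have K0 : K (0, 1) = 0 := by simp [K]
  let a := Sum.elim (K ∘ fP r p.t p.f p.s) (K ∘ sP O p.t p.s)
  obtain ⟨i, hi⟩ := Finite.exists_min fun i => IsDiscreteValuationRing.addVal O (a i)
  simp only [IsDiscreteValuationRing.addVal_le_iff_dvd] at hi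
  choose w hw using hi
  have a0 : a i ≠ 0 := fun e => by
    simp only [e, zero_mul] at hw
    rcases R.ne h.toEs h0 with k | ⟨j, k⟩
    exacts [k (hw (.inr none)), k (hw (.inr (some j)))]
  have w1 : w i = 1 := mul_left_cancel₀ a0 (by rw [← hw, mul_one])
  have hu : ∀ j, K (fP r p.t p.f p.s j) = a i * w (.inl j) := fun j => hw (.inl j)
  have hv : ∀ j, K (sP O p.t p.s j) = a i * w (.inr j) := fun j => hw (.inr j)
  obtain ⟨g, g1, g2, g3⟩ := oP.orth hD hb (u := w ∘ .inl) (v := w ∘ .inr) fun g hg =>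
    mul_left_cancel₀ a0 (by
      rw [mul_zero, ← oP.iso.pt K0 hg, Finset.mul_sum]
      exact Finset.sum_congr rfl fun j _ => by simp only [hu, hv, Function.comp]; ring)
  refine ⟨g, _, _, g1, g2, g3, fun o => ?_, fun e => ?_, ?_⟩
  · have k : K (ch (cP m) (fP r p.t p.f p.s) (sP O p.t p.s) o) = 0 := kP h h2 h0 hr o
    unfold ch at k ⊢
    split at k <;> simp_all
  · have : residue O (w i) = 0 := by
      rcases i with i | i
      exacts [congrFun (congrArg Prod.fst e) i, congrFun (congrArg Prod.snd e) i]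
    simp [w1] at this
  by_cases k : IsUnit (g (η, 0))
  · have := dvd_NN (g := b • K - a i • g) (a := 0) (by simp [K0, g1])
      (fun j => by simp [hu, g2, mul_left_comm]) (fun j => by simp [hv, g3, mul_left_comm])
      (cyP (r := r) c).mul
    rw [zero_dvd_iff, map_smul, smul_eq_mul, mul_eq_zero, LinearMap.sub_apply, sub_eq_zero] at this
    have d : b ∣ a i := k.dvd_mul_right.1 ⟨_, (this.resolve_left hb).symm⟩
    exact .inl fun z => dvd_NN (g := p.κ m) (d.trans ⟨_, hv none⟩) (fun j => d.trans ⟨_, hu (some j)⟩)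
      fun j => d.trans ⟨_, hv (some j)⟩
  obtain ⟨g0, u0, v0, k1, k2, k3, -, k5⟩ := (cyP (r := r) c).gen oP hD hb hϖ hd
  obtain ⟨e, ρ, s0, s1, s2, s3⟩ := (cyP (r := r) c).red hb k1 k2 k3 g1 g2 g3 k5
  have e0 : residue O e = 0 := (residue_eq_zero_iff _).2 fun e => k (s0 ▸ e.mul k5)
  simp only [Function.comp_apply] at s2 s3
  exact .inr ⟨ρ, s1, by ext j <;> simp [e0, s2, s3]⟩

omit h hD hb h2 h0 hr in
theorem app (hϖ : Irreducible ϖ) {𝒮 : Set (Stg O)} (H : CHB 𝒮 b ϖ) (hp : p ∈ 𝒮)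
    (hn : p.κ m p.t ≠ 0 ∨ ∃ j, p.κ m (p.s j) ≠ 0) {ι : ResidueField O →ₗ[O] O ⧸ Ideal.span {b * ϖ}}
    (hι : Injective ι) (γ γ' : p.X × O →ₗ[O] O ⧸ Ideal.span {b * ϖ})
    {w w' : (Option (p.ι × Fin 2) → ResidueField O) × (Option (p.ι × Fin 2) → ResidueField O)}
    (a1 : ∀ o, γ (fP r p.t p.f p.s o) = ι (w.1 o)) (a2 : ∀ o, γ (sP O p.t p.s o) = ι (w.2 o))
    (a3 : ∀ o, γ' (fP r p.t p.f p.s o) = ι (w'.1 o)) (a4 : ∀ o, γ' (sP O p.t p.s o) = ι (w'.2 o))
    (ind : ∀ x y : ResidueField O, x • w + y • w' = 0 → x = 0 ∧ y = 0) :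
    ∃ q ∈ 𝒮, ∃ E : Ext p q, E.Int ∧ (∀ a a' : Fin 2 → ResidueField O,
      (∀ i, γ (E.π (q.f (E.e none, i)), 0) = ι (a i)) → (∀ i, γ' (E.π (q.f (E.e none, i)), 0) = ι (a' i)) →
      (!![a 0, a 1; a' 0, a' 1]).det ≠ 0) ∧ ∃ i, p.κ m (E.π (q.f (E.e none, i))) ≠ 0 := by
  have z : ∀ a, ϖ • ι a = 0 := fun a => by
    rw [← map_smul, Algebra.smul_def, ResidueField.algebraMap_eq, (res0 hϖ).2 dvd_rfl]; simp
  have k : ∀ (γ : p.X × O →ₗ[O] O ⧸ Ideal.span {b * ϖ}) (u v : _ → ResidueField O),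
      (∀ o, γ (fP r p.t p.f p.s o) = ι (u o)) → (∀ o, γ (sP O p.t p.s o) = ι (v o)) →
      NN O p.t p.f p.s ≤ LinearMap.ker (ϖ • γ ∘ₗ LinearMap.inl O p.X O) := fun γ u v a1 a2 =>
    NN_le ((congrArg (ϖ • ·) (a2 none)).trans (z _))
      (fun j => (congrArg (ϖ • ·) (a1 (some j))).trans (z _))
      fun j => (congrArg (ϖ • ·) (a2 (some j))).trans (z _)
  obtain ⟨q, hq, E, k1, k2, k3⟩ := H p hp m (γ ∘ₗ .inl O _ O) (γ' ∘ₗ .inl O _ O)
    (fun y hy => ⟨k γ _ _ a1 a2 hy, k γ' _ _ a3 a4 hy⟩) (fun x y h => by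
      rw [← res0 hϖ, ← res0 hϖ]
      have e : ∀ (n : p.X × O) a a', n.1 ∈ NN O p.t p.f p.s → n.2 = 0 → γ n = ι a → γ' n = ι a' →
          residue O x * a + residue O y * a' = 0 := fun ⟨n, _⟩ a a' h1 h2 h3 h4 => hι (by
        obtain rfl := h2
        have := h n h1
        rw [LinearMap.comp_apply, LinearMap.comp_apply, LinearMap.inl_apply, h3, h4, ← map_smul,
          ← map_smul, ← map_add, Algebra.smul_def, Algebra.smul_def] at this
        exact this.trans (map_zero ι).symm)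
      refine ind _ _ ?_
      ext (_ | j)
      exacts [e _ _ _ (neg_mem sm_mem) rfl (a1 none) (a3 none), e _ _ _ (mf j) rfl (a1 (some j)) (a3 (some j)),
        e _ _ _ mt rfl (a2 none) (a4 none), e _ _ _ (ms j) rfl (a2 (some j)) (a4 (some j))]) hn
  exact ⟨q, hq, E, k1, fun a a' h1 h2 => ind_det hϖ ι (by simp only [← h1, ← h2]; exact k2), k3⟩

omit h hD hb h2 h0 hr [IsDomain O] [IsDiscreteValuationRing O] in
theorem exP {q : Stg O} (E : Ext p q) (hI : E.Int) (r : p.X →ₗ[O] O) :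
    ∃ e : Option (p.ι × Fin 2) ⊕ Fin 2 ≃ Option (q.ι × Fin 2),
      Ex0 ((0, 1) : p.X × O) (fP r p.t p.f p.s) (sP O p.t p.s) ((0, 1) : q.X × O)
        (fP (r ∘ₗ E.π) q.t q.f q.s) (sP O q.t q.s) e (E.π.prodMap .id) ∧
      (∀ i, e (.inr i) = some (E.e none, i)) ∧ ∀ (m : Finset p.ι) j,
        cP (insert (E.e none) (m.image fun l => E.e (some l))) (e (.inl j)) = cP m j := by
  let e : (p.ι × Fin 2) ⊕ Fin 2 ≃ q.ι × Fin 2 :=
    ((Equiv.sumComm _ _).trans optionProdEquiv.symm).trans (E.e.prodCongr (Equiv.refl _))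
  let e' : Option (p.ι × Fin 2) ⊕ Fin 2 ≃ Option ((p.ι × Fin 2) ⊕ Fin 2) :=
    ⟨Sum.elim (Option.map .inl) (some ∘ .inr), fun o => o.elim (.inl none) (Sum.map some id),
      by rintro ((_ | _) | _) <;> rfl, by rintro (_ | _ | _) <;> rfl⟩
  have e1 : ∀ j, E.π (q.f (e (.inl j))) = p.f j := fun j => E.f _ _
  have e2 : ∀ j, E.π (q.s (e (.inl j))) = p.s j := fun j => E.s _ _
  have e3 : ∀ j, E.π (q.s (e (.inr j))) = 0 := E.z
  refine ⟨e'.trans e.optionCongr, ⟨by simp, ?_, ?_, fun i => Prod.ext (e3 i) rfl,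
    fun a g g1 g2 g3 i => hI a (g ∘ₗ .inl O _ O) (g3 none) (fun l i => g2 (some (l, i)))
      (fun j => g3 (some j)) i⟩, fun _ => rfl, ?_⟩
  · rintro (_ | j)
    · refine Prod.ext ?_ rfl
      show E.π (-sm _ _ _ _) = -sm _ _ _ _
      simp [sm, ← e.sum_comp, Fintype.sum_sum_type, e1, e2, e3, E.t]
    · exact Prod.ext (e1 j) rfl
  · rintro (_ | j)
    exacts [Prod.ext E.t rfl, Prod.ext (e2 j) rfl]
  · rintro m (_ | j)
    · rfl
    · show cm _ (e (.inl j)) = cm m j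
      simp [e, cm]

end Kb
open Kb

variable [IsDomain O] [IsDiscreteValuationRing O] {D b ϖ : O}

theorem kolB (𝒮 : Set (Stg O)) (ok : ∀ p ∈ 𝒮, p.OkB D b) (hD : D ≠ 0) (hb : b ≠ 0)
    (h2 : IsUnit (2 : O)) (hϖ : Irreducible ϖ) (H : CHB 𝒮 b ϖ) {p : Stg O} (hp : p ∈ 𝒮)
    (h0 : p.κ ∅ p.t ≠ 0) : D ∣ p.κ ∅ p.t ^ 2 := by
  by_cases hd : ϖ ∣ b
  swap
  · exact kol 𝒮 (fun p hp => ⟨(ok p hp).ok0, (ok p hp).ks, (ok p hp).kf, (ok p hp).r1, (ok p hp).r0,
      fun _ => ((unit_of hϖ).2 hd).dvd⟩) hD hb h2.ne_zero hϖ (ch_of hb hϖ H) hp h0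
  obtain ⟨ι, i1, i2⟩ := ex_io hb hϖ
  suffices ∀ n, ∀ p ∈ 𝒮, p.κ ∅ p.t ≠ 0 → ∀ r : p.X →ₗ[O] O, r p.t = 1 → ∀ m, Reach p m →
      finrank (ResidueField O) (Gl p r b m) = n → D ∣ p.κ ∅ p.t ^ 2 by
    obtain ⟨η, x, c⟩ := (ok p hp).cy
    obtain ⟨r, hr⟩ := c.one (ok p hp).ok0 hD hb hϖ hd h0
    exact this _ p hp h0 r hr ∅ .nil rfl
  intro n
  induction n using Nat.strong_induction_on with
  | h n ih =>
  intro p hp h0 r hr m R hn
  obtain ⟨η, x, c⟩ := (ok p hp).cy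
  have oP := okP (ok p hp).ok0 c hr
  have nx : ∀ q ∈ 𝒮, ∀ E : Ext p q, ∀ i, p.κ m (E.π (q.f (E.e none, i))) ≠ 0 →
      q.κ ∅ q.t = p.κ ∅ p.t ∧ (r ∘ₗ E.π) q.t = 1 ∧
      Ok0 ((0, 1) : q.X × O) (fP (r ∘ₗ E.π) q.t q.f q.s) (sP O q.t q.s) D b ∧
      Reach q (insert (E.e none) (m.image fun l => E.e (some l))) := fun q hq E i k =>
    have e : (r ∘ₗ E.π) q.t = 1 := by simp [E.t, hr]
    ⟨by simpa [E.t] using LinearMap.congr_fun (E.κ ∅) q.t, e,
      okP (ok q hq).ok0 (ok q hq).cy.choose_spec.choose_spec e,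
      .cons _ (E.e none) i (R.ext E) (by simp) (by rwa [E.κ])⟩
  rcases Nat.lt_or_ge n 2 with k | k
  swap
  · obtain ⟨g, u, v, a1, a2, a3, a4, a5⟩ := two_pts hϖ hb (hn ▸ k)
    obtain ⟨q, hq, E, k0, k1, i, k2⟩ := app (r := r) hϖ H hp (R.ne (ok p hp).toEs h0) i1
      (mkQ _ ∘ₗ g 0) (mkQ _ ∘ₗ g 1) (w := (residue O ∘ u 0, residue O ∘ v 0))
      (w' := (residue O ∘ u 1, residue O ∘ v 1)) (by simp [i2, a2]) (by simp [i2, a3])
      (by simp [i2, a2]) (by simp [i2, a3]) fun x y e => by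
        obtain ⟨x, rfl⟩ := residue_surjective x
        obtain ⟨y, rfl⟩ := residue_surjective y
        rw [res0 hϖ, res0 hϖ]
        have q : ∀ a a' : O, residue O x * residue O a + residue O y * residue O a' = 0 →
            b * ϖ ∣ x * (b * a) + y * (b * a') := fun a a' h => by
          rw [← map_mul, ← map_mul, ← map_add, res0 hϖ, ← mul_dvd_mul_iff_left hb] at h
          convert h using 1; ring
        exact a5 x y (fun j => by simpa [a2] using q _ _ (congrFun (congrArg Prod.fst e) j))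
          fun j => by simpa [a3] using q _ _ (congrFun (congrArg Prod.snd e) j)
    obtain ⟨e0, r', oQ, R'⟩ := nx q hq E i k2
    obtain ⟨e, x0, x1, x2⟩ := exP E k0 r
    refine e0 ▸ ih _ (hn ▸ ?_) q hq (e0 ▸ h0) _ r' _ R' rfl
    refine x0.drop hb oP.iso oQ.iso (oP.res hD hb).1 hϖ (x2 m) (fun j => by simp [x1, cP, cm])
      g u v a1 a2 a3 a4 fun d => ?_
    choose u' v' k3 _ using fun a => x0.pt hb (a1 a) (a2 a) (a3 a)
    have k4 : ∀ a i, g a (E.π (q.f (E.e none, i)), 0) = b * u' a (some (E.e none, i)) := fun a i => k3 a (some _)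
    refine k1 (fun i => residue O (u' 0 (some (E.e none, i)))) (fun i => residue O (u' 1 (some (E.e none, i))))
      (by simp [i2, k4]) (by simp [i2, k4]) ?_
    simp only [det_fin_two_of, ← map_mul, ← map_sub, res0 hϖ]
    rw [← mul_dvd_mul_iff_left (pow_ne_zero 2 hb)]
    convert d using 1
    simp only [det_fin_two, of_apply, k3, x1]; ring
  obtain ⟨g, u, v, a1, a2, a3, a4, a5, a6⟩ := nrm (ok p hp) hD hb h2 h0 hr hϖ hd R
  have one : ∀ {V : Type} [AddCommGroup V] [Module (ResidueField O) V] [Module.Finite (ResidueField O) V]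
      {U : Submodule (ResidueField O) V} {w : V}, w ∈ U → w ≠ 0 → finrank (ResidueField O) U < 2 →
      finrank (ResidueField O) U = 1 := fun {V _ _ _ U w} h1 h3 h4 => by
    have : finrank (ResidueField O) U ≠ 0 := fun e =>
      h3 (by rw [Submodule.finrank_eq_zero.1 e] at h1; exact h1)
    omega
  have w0 : (residue O ∘ u, residue O ∘ v) ∈ Gl p r b m := ⟨⟨g, u, v, a1, a2, a3, rfl⟩, a4⟩
  have n1 := one w0 a5 (hn ▸ k)
  rcases a6 with a6 | ⟨ρ, r1, r2⟩
  · exact low (ok p hp) hD hb h2 h0 hr R n1 a6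
  obtain ⟨y, y1, y2, y3⟩ := (cyP c).ex_l oP hD hb hϖ hd h2 n1 r1 (r2 ▸ a4) (r2 ▸ a5)
  obtain ⟨q, hq, E, k0, k1, i, k2⟩ := app (r := r) hϖ H hp (R.ne (ok p hp).toEs h0) i1
    (mkQ _ ∘ₗ g) (ι ∘ₗ y) (w := (residue O ∘ u, residue O ∘ v))
    (w' := (y ∘ fP r p.t p.f p.s, y ∘ sP O p.t p.s)) (by simp [i2, a2]) (by simp [i2, a3])
    (fun _ => rfl) (fun _ => rfl) fun a a' e => by
      have : a' = 0 := by
        by_contra e'
        exact y3 ((smul_mem_iff _ e').1 (eq_neg_of_add_eq_zero_right e ▸ neg_mem (smul_mem _ _ w0.1)))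
      rw [this, zero_smul, add_zero] at e
      exact ⟨(smul_eq_zero.1 e).resolve_right a5, this⟩
  obtain ⟨e0, r', oQ, R'⟩ := nx q hq E i k2
  obtain ⟨e, x0, x1, x2⟩ := exP E k0 r
  have L := x0.last hb hϖ oP.iso oQ.iso (oP.res hD hb).1 (x2 m) (fun j => by simp [x1, cP, cm])
    a1 a2 a3 a4 (fun w hw => by
      obtain ⟨a, ha⟩ := (finrank_eq_one_iff_of_nonzero' (⟨_, w0⟩ : Gl p r b m)
        fun e => a5 (congrArg Subtype.val e)).1 n1 ⟨w, hw⟩
      exact ⟨a, congrArg Subtype.val ha⟩) y2 fun z hz => by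
      simp only [x1] at hz ⊢
      exact k1 (residue O ∘ z) (fun i => y (E.π (q.f (E.e none, i)), 0))
        (fun i => (congrArg (mkQ _) (hz i)).trans (i2 _).symm) fun _ => rfl
  obtain ⟨g', u', v', b1, b2, b3, b4, b5, b6⟩ := nrm (ok q hq) hD hb h2 (e0 ▸ h0) r' hϖ hd R'
  have w1 : (residue O ∘ u', residue O ∘ v') ∈ Gl q (r ∘ₗ E.π) b _ := ⟨⟨g', u', v', b1, b2, b3, rfl⟩, b4⟩
  rcases b6 with b6 | ⟨ρ', s1, s2⟩
  · refine e0 ▸ low (ok q hq) hD hb h2 (e0 ▸ h0) r' R' (one w1 b5 (Nat.lt_succ_of_le ?_)) b6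
    refine (LinearMap.finrank_le_finrank_of_injective (f := (((dotProductBilin (ResidueField O) (ResidueField O)).flip
      (y ∘ E.π.prodMap .id ∘ sP O q.t q.s)).coprod ((dotProductBilin (ResidueField O) (ResidueField O)).flip
      (y ∘ E.π.prodMap .id ∘ fP (r ∘ₗ E.π) q.t q.f q.s))).domRestrict _)
      ((injective_iff_map_eq_zero _).2 fun w hw => Subtype.ext (L _ w.2 hw))).trans (by simp)
  · refine absurd (L _ w1 ?_) b5
    rw [← s2]
    exact oQ.iso.res (y := Algebra.linearMap O _ ∘ₗ ρ') (y' := y ∘ₗ E.π.prodMap .id) (by simp [s1])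
      (by simp [y1])

end Vale.Agent.P004F.Alg
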