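import Vale.Agent.P004F.Alg.Kol

/-! The lambda trick, localisation at a prime element, and counting solutions. -/

namespace Vale.Agent.P004F.Alg
open PowerSeries Matrix IsLocalRing

theorem X_pow_dvd {k : Type} [CommRing k] {f : k⟦X⟧} {n : ℕ} : X ^ n ∣ f ↔ (n : ℕ∞) ≤ f.order := by
  rw [order_eq_emultiplicity_X, pow_dvd_iff_le_emultiplicity]

section lam
variable {R k : Type} [CommRing R] [IsDomain R] [CommRing k] [IsDomain k] (φ : R →+* k)

theorem ndvd {p : R} (hp : p ≠ 0) (hφ : ∀ x, φ x = 0 ↔ p ∣ x) {π : R⟦X⟧} (hπ : Prime π)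
    (h : map φ π ≠ 0) : ¬ π ∣ C p := by
  rintro ⟨c, hc⟩
  have h1 : map φ c = 0 := by
    have := congrArg (map φ) hc
    rw [map_C, (hφ p).2 dvd_rfl, map_zero, map_mul] at this
    exact (mul_eq_zero.1 this.symm).resolve_left h
  choose d hd using fun n => (hφ (coeff n c)).1 (by simpa using congrArg (coeff n) h1)
  have h2 : c = C p * mk d := by ext n; simp [hd]
  refine hπ.not_isUnit (.of_mul_eq_one (mk d) (mul_left_cancel₀ (a := C p)
    (fun e => hp (by simpa using congrArg constantCoeff e)) ?_))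
  rw [h2] at hc; linear_combination -hc

variable [IsPrincipalIdealRing R] {D Θ : R⟦X⟧} (hD : map φ D ≠ 0)
  (h : ∀ π : R⟦X⟧, Prime π → map φ π ≠ 0 → ¬ π ∣ X → ∀ n : ℕ, π ^ n ∣ D → π ^ n ∣ Θ ^ 2)
include hD h

theorem lam0 (ho : 2 * (map φ Θ).order ≤ (map φ D).order) : 2 * Θ.order ≤ D.order := by
  have h1 : D ≠ 0 := fun e => hD (by simp [e])
  have h2 : map φ Θ ≠ 0 := fun e => hD (by simpa [e] using ho)
  have h3 : Θ ≠ 0 := fun e => h2 (by simp [e])
  have e1 := X_pow_order_mul_divXPowOrder (f := D)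
  have e2 := X_pow_order_mul_divXPowOrder (f := Θ)
  have d1 : ¬ X ∣ divXPowOrder D := by rwa [X_dvd_iff, constantCoeff_divXPowOrder_eq_zero_iff]
  have d2 : divXPowOrder D ∣ divXPowOrder Θ ^ 2 := by
    refine (UniqueFactorizationMonoid.dvd_iff_emultiplicity_le (fun e => d1 (by simp [e]))).2
      fun π hπ => emultiplicity_le_emultiplicity_iff.2 fun n hn => ?_
    rcases n with _ | n
    · simp
    have a1 : π ∣ divXPowOrder D := (dvd_pow_self π n.succ_ne_zero).trans hn
    have a2 : ¬ π ∣ X := fun e => d1 ((hπ.associated_of_dvd X_prime e).dvd'.trans a1)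
    have a3 := h π hπ (fun e => hD ?_) a2 _ (hn.trans (Dvd.intro_left _ e1))
    · rw [← e2, mul_pow, ← pow_mul] at a3
      exact hπ.pow_dvd_of_dvd_mul_left _ (fun e => a2 (hπ.dvd_of_dvd_pow e)) a3
    · obtain ⟨c, hc⟩ := a1.trans (Dvd.intro_left _ e1)
      simp [hc, e]
  obtain ⟨c, hc⟩ := d2
  have o1 := congrArg (fun z => (map φ z).order) e1
  have o2 := congrArg (fun z => (map φ z).order) e2
  have o3 := congrArg (fun z => (map φ z).order) hc
  simp only [map_mul, map_pow, map_X, order_mul, order_pow, coe_toNat_order h1,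
    coe_toNat_order h3, order_X, nsmul_eq_mul, mul_one, Nat.cast_ofNat] at o1 o2 o3
  have f1 : (map φ (divXPowOrder Θ)).order ≠ ⊤ := fun e => h2 (by rw [← order_eq_top, ← o2, e]; simp)
  rw [← o1, ← o2, mul_add] at ho
  refine (ENat.add_le_add_iff_right (k := 2 * (map φ (divXPowOrder Θ)).order)
    (by simpa [two_mul] using f1)).1 (ho.trans ?_)
  rw [o3]; gcongr; exact le_self_add

/-- the lambda trick -/
theorem lam {l : ℕ} (h1 : ¬ X ^ (l + 1) ∣ map φ Θ) (h2 : X ^ (2 * l) ∣ map φ D)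
    (h0 : constantCoeff D ≠ 0) : constantCoeff Θ ≠ 0 := fun e => by
  rw [X_pow_dvd, not_le] at h1
  rw [X_pow_dvd] at h2
  have := lam0 φ hD h (le_trans (by
    push_cast at h1 ⊢; gcongr; exact Order.le_of_lt_add_one h1) h2)
  refine h0 (one_le_order_iff_constCoeff_eq_zero.1 (le_trans ?_ this))
  exact (one_le_order_iff_constCoeff_eq_zero.2 e).trans (by rw [two_mul]; exact le_self_add)

end lam

section loc
variable {A : Type} [CommRing A] [IsDomain A] (π : A) [hπ : Fact (Prime π)]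

instance pr_span : (Ideal.span {π}).IsPrime := (Ideal.span_singleton_prime hπ.1.ne_zero).2 hπ.1

/-- the localisation at the prime element `π` -/
abbrev Lc : Type := Localization.AtPrime (Ideal.span {π})

theorem Lc.inj : Function.Injective (algebraMap A (Lc π)) :=
  IsLocalization.injective _ (Ideal.span {π}).primeCompl_le_nonZeroDivisors

theorem Lc.ne {a : A} (h : a ≠ 0) : algebraMap A (Lc π) a ≠ 0 := (map_ne_zero_iff _ (Lc.inj π)).2 h

omit [IsDomain A] in
theorem Lc.unit {a : A} : IsUnit (algebraMap A (Lc π) a) ↔ ¬ π ∣ a := by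
  rw [IsLocalization.AtPrime.isUnit_to_map_iff _ (Ideal.span {π}), ← Ideal.mem_span_singleton]; rfl

omit [IsDomain A] in
theorem Lc.max : maximalIdeal (Lc π) = Ideal.span {algebraMap A (Lc π) π} := by
  rw [← Localization.AtPrime.map_eq_maximalIdeal, Ideal.map_span, Set.image_singleton]

theorem Lc.dvd {a b : A} :
    algebraMap A (Lc π) a ∣ algebraMap A (Lc π) b ↔ ∃ s, ¬ π ∣ s ∧ a ∣ s * b := by
  constructor
  · rintro ⟨c, hc⟩
    obtain ⟨⟨x, s⟩, h⟩ := IsLocalization.surj (Ideal.span {π}).primeCompl c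
    refine ⟨s, fun e => s.2 (Ideal.mem_span_singleton.2 e), x, Lc.inj π ?_⟩
    simp only [map_mul] at h ⊢
    rw [hc, ← h]; ring
  · rintro ⟨s, h, e⟩
    exact (((Lc.unit π).2 h).dvd_mul_left).1 (by simpa using map_dvd (algebraMap A (Lc π)) e)

theorem Lc.pow_dvd {a b : A} (h : algebraMap A (Lc π) a ∣ algebraMap A (Lc π) b) (n : ℕ)
    (hn : π ^ n ∣ a) : π ^ n ∣ b := by
  obtain ⟨s, h1, h2⟩ := (Lc.dvd π).1 h
  exact hπ.1.pow_dvd_of_dvd_mul_left _ h1 (hn.trans h2)

instance Lc.dvr [IsNoetherianRing A] : IsDiscreteValuationRing (Lc π) := by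
  have : IsNoetherianRing (Lc π) := IsLocalization.isNoetherianRing (Ideal.span {π}).primeCompl _ ‹_›
  refine ((IsDiscreteValuationRing.TFAE (Lc π) fun h => ?_).out 4 0).1
    (show (maximalIdeal (Lc π)).IsPrincipal from ⟨_, Lc.max π⟩)
  rw [isField_iff_maximalIdeal_eq, Lc.max, Ideal.span_singleton_eq_bot] at h
  exact Lc.ne π hπ.1.ne_zero h

theorem Lc.irr [IsNoetherianRing A] : Irreducible (algebraMap A (Lc π) π) :=
  (IsDiscreteValuationRing.irreducible_iff_uniformizer _).2 (Lc.max π)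

end loc

/-- the lambda trick from divisibility in the localisations -/
theorem lam_lc {R k : Type} [CommRing R] [IsDomain R] [IsPrincipalIdealRing R] [CommRing k]
    [IsDomain k] (φ : R →+* k) {D Θ : R⟦X⟧} (hD : map φ D ≠ 0)
    (h : ∀ (π : R⟦X⟧) [Fact (Prime π)], map φ π ≠ 0 → ¬ π ∣ X →
      algebraMap _ (Lc π) D ∣ algebraMap _ (Lc π) Θ ^ 2) {l : ℕ} (h1 : ¬ X ^ (l + 1) ∣ map φ Θ)
    (h2 : X ^ (2 * l) ∣ map φ D) (h0 : constantCoeff D ≠ 0) : constantCoeff Θ ≠ 0 :=
  lam φ hD (fun π hπ a b => have := Fact.mk hπ; Lc.pow_dvd π (map_pow (algebraMap _ (Lc π)) Θ 2 ▸ h π a b))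
    h1 h2 h0

section cnt
variable {S n M : Type} [CommRing S] [IsDomain S] [IsDiscreteValuationRing S] [Fintype n]
  [DecidableEq n] [AddCommGroup M] [Module S M] [Finite M] {ϖ : S} (hϖ : Irreducible ϖ)

/-- solutions of a linear system -/
def So (M : Type) [AddCommGroup M] [Module S M] {r : Type} (A : Matrix r n S) :
    AddSubgroup (n → M) where
  carrier := {y | ∀ i, ∑ j, A i j • y j = 0}
  add_mem' ha hb i := by simp [Finset.sum_add_distrib, ha i, hb i]
  zero_mem' i := by simp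
  neg_mem' ha i := by simp [ha i]

include hϖ

theorem cnt_le {q : ℕ} (hq : Nat.card {z : M // ϖ • z = 0} ≤ q) (e : ℕ) (A : Matrix n n S)
    (h : ¬ ϖ ^ (e + 1) ∣ A.det) : Nat.card (So M A) ≤ q ^ e := by
  have hr : ∀ x : S, residue S x = 0 ↔ ϖ ∣ x := fun x => by
    rw [residue_eq_zero_iff, hϖ.maximalIdeal_eq, Ideal.mem_span_singleton]
  have hu : ∀ x : S, ¬ ϖ ∣ x → IsUnit x := fun x hx => by
    rwa [← hr, residue_eq_zero_iff, notMem_maximalIdeal] at hx
  have cm : ∀ (A : Matrix n n S) (y : n → M), y ∈ So M A → ∀ v : n → S, ∑ j, (v ᵥ* A) j • y j = 0 :=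
    fun A y hy v => by
      simp only [vecMul, dotProduct, Finset.sum_smul, mul_smul]
      rw [Finset.sum_comm]
      exact Finset.sum_eq_zero fun i _ => by rw [← Finset.smul_sum, hy i, smul_zero]
  have q1 : 1 ≤ q := le_trans (Nat.card_pos_iff.2 ⟨⟨⟨0, smul_zero _⟩⟩, inferInstance⟩) hq
  have z : ∀ A : Matrix n n S, ¬ ϖ ∣ A.det → Nat.card (So M A) ≤ 1 := fun A h => by
    refine Finite.card_le_one_iff_subsingleton.2 (subsingleton_of_forall_eq 0 fun y => ?_)
    ext i
    have := cm A y y.2 (Pi.single i 1 ᵥ* A⁻¹)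
    rw [vecMul_vecMul, nonsing_inv_mul _ (hu _ h)] at this
    simpa [Pi.single_apply] using this
  induction e generalizing A with
  | zero => simpa using z A (by simpa using h)
  | succ e ih =>
  by_cases h0 : ϖ ∣ A.det
  swap
  · exact (z A h0).trans (Nat.one_le_pow _ _ q1)
  obtain ⟨v, hv, h1⟩ := exists_vecMul_eq_zero_iff.2
    (show (A.map (residue S)).det = 0 from (RingHom.map_det _ A).symm.trans ((hr _).2 h0))
  obtain ⟨i, hi⟩ := Function.ne_iff.1 hv
  choose w hw using fun j => residue_surjective (v j)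
  choose r hr' using fun j => (hr ((w ᵥ* A) j)).1 (by
    simpa [vecMul, dotProduct, hw] using congrFun h1 j)
  have d : ϖ * (A.updateRow i r).det = w i * A.det := by
    rw [← det_updateRow_smul, ← smul_eq_mul, ← det_updateRow_sum]
    congr 2; ext j; simp [← hr', vecMul, dotProduct]
  have := ih (A.updateRow i r) fun e => h ((hu (w i) (by rwa [← hr, hw])).dvd_mul_left.1
    (by rw [← d, pow_succ']; exact mul_dvd_mul_left _ e))
  let ψ : So M A →+ M := AddMonoidHom.mk' (fun y => ∑ j, r j • y.1 j)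
    (by simp [Finset.sum_add_distrib])
  rw [AddSubgroup.card_eq_card_quotient_mul_card_addSubgroup ψ.ker, pow_succ',
    Nat.card_congr (QuotientAddGroup.quotientKerEquivRange ψ).toEquiv]
  have k1 : ∀ x : ψ.range, ϖ • x.1 = 0 := by
    rintro ⟨_, y, rfl⟩
    simpa [hr', ψ, Finset.smul_sum, mul_smul] using cm A y y.2 w
  have k2 : ∀ x : ψ.ker, x.1.1 ∈ So M (A.updateRow i r) := fun x a => by
    by_cases e : a = i
    · subst e; simpa [ψ] using (AddMonoidHom.mem_ker.1 x.2)
    · simpa [updateRow_ne e] using x.1.2 a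
  exact Nat.mul_le_mul (le_trans (Nat.card_le_card_of_injective (fun x => ⟨x.1, k1 x⟩)
    fun x y e => by simpa using e) hq)
    (le_trans (Nat.card_le_card_of_injective (fun x => ⟨x.1.1, k2 x⟩)
      fun x y e => Subtype.ext (Subtype.ext (Subtype.mk.inj e))) this)

omit hϖ in
theorem cnt_ge (A : Matrix n n S) (h : A.det = 0) : Nat.card M ≤ Nat.card (So M A) := by
  obtain ⟨g, hg, h1⟩ := (det_eq_zero_iff (Pi.basisFun S n) fun i => A i).1 (by
    rw [← h, Module.Basis.det_apply, ← det_transpose]; congr 1)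
  obtain ⟨a, ha⟩ := (IsPrincipalIdealRing.principal (LinearMap.range g)).principal
  obtain ⟨x, hx⟩ : a ∈ LinearMap.range g := ha ▸ Submodule.mem_span_singleton_self a
  choose c hc using fun j => Submodule.mem_span_singleton.1
    (ha ▸ LinearMap.mem_range_self g (Pi.single j 1))
  have a0 : a ≠ 0 := fun e => hg (LinearMap.range_eq_bot.1 (by simp [ha, e]))
  have k : ∀ u : n → S, g u = (∑ j, u j * c j) * a := fun u => by
    conv_lhs => rw [pi_eq_sum_univ' u]
    simp [map_sum, ← hc, Finset.sum_mul, mul_assoc]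
  refine Nat.card_le_card_of_injective (fun z => ⟨fun j => c j • z, fun i => ?_⟩) fun z z' e => ?_
  · have := (mul_eq_zero.1 ((k _).symm.trans (h1 i))).resolve_right a0
    simp [← mul_smul, ← Finset.sum_smul, this]
  · have e1 : ∑ j, x j * c j = 1 := mul_right_cancel₀ a0 (by rw [← k, hx, one_mul])
    have e2 : ∀ j, c j • z = c j • z' := fun j => congrFun (congrArg Subtype.val e) j
    rw [← one_smul S z, ← one_smul S z', ← e1]
    simp [Finset.sum_smul, mul_smul, e2]

end cnt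

section ps
variable {k R n : Type} [Field k] [Finite k] [CommRing R] [Fintype n] [DecidableEq n]
  (σ : k⟦X⟧ →+* R) (hσ : Function.Surjective σ) {j : ℕ} (hk : ∀ x, σ x = 0 ↔ X ^ j ∣ x)
include hσ hk

omit [Finite k] in
theorem ps_equiv : Nonempty (R ≃ (Fin j → k)) := by
  let ψ : k⟦X⟧ →+ (Fin j → k) := AddMonoidHom.mk' (fun x i => coeff i x) fun x y => by ext; simp
  have h1 : Function.Surjective ψ := fun c =>
    ⟨mk fun i => if h : i < j then c ⟨i, h⟩ else 0, by ext i; simp [ψ]⟩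
  have h2 : σ.toAddMonoidHom.ker = ψ.ker := by
    ext x
    simp only [AddMonoidHom.mem_ker, RingHom.toAddMonoidHom_eq_coe, AddMonoidHom.coe_coe, hk,
      X_pow_dvd_iff, funext_iff]
    exact ⟨fun h i => h i i.2, fun h i hi => h ⟨i, hi⟩⟩
  exact ⟨(((QuotientAddGroup.quotientKerEquivOfSurjective σ.toAddMonoidHom hσ).symm.trans
    (QuotientAddGroup.quotientAddEquivOfEq h2)).trans
    (QuotientAddGroup.quotientKerEquivOfSurjective ψ h1)).toEquiv⟩

/-- solutions over `k[T] / T ^ j` -/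
theorem cnt_ps (A : Matrix n n k⟦X⟧) :
    (∀ e, ¬ X ^ (e + 1) ∣ A.det → Nat.card {y : n → R // A.map σ *ᵥ y = 0} ≤ Nat.card k ^ e) ∧
    (A.det = 0 → Nat.card k ^ j ≤ Nat.card {y : n → R // A.map σ *ᵥ y = 0}) := by
  obtain ⟨E⟩ := ps_equiv σ hσ hk
  have := Finite.of_equiv _ E.symm
  let _ := σ.toAlgebra
  have e0 : Nat.card {y : n → R // A.map σ *ᵥ y = 0} = Nat.card (So R A) :=
    Nat.card_congr (Equiv.subtypeEquivRight fun y => funext_iff)
  rw [e0]
  refine ⟨fun e => cnt_le X_irreducible ?_ e A, fun h => le_trans ?_ (cnt_ge A h)⟩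
  · have k1 : ∀ z : {z : R // (X : k⟦X⟧) • z = 0}, ∃ c : k, z.1 = σ (C c * X ^ (j - 1)) := by
      rintro ⟨z, hz⟩
      obtain ⟨x, rfl⟩ := hσ z
      obtain ⟨y, hy⟩ := (hk _).1 ((map_mul σ _ _).trans hz)
      refine ⟨constantCoeff y, ?_⟩
      rw [Subtype.coe_mk, ← sub_eq_zero, ← map_sub, hk]
      rcases j with _ | j
      · simp
      obtain ⟨w, hw⟩ := X_dvd_iff.2 (show constantCoeff (y - C (constantCoeff y)) = 0 by simp)
      have : x = X ^ j * y := mul_left_cancel₀ (a := X) X_prime.ne_zero (by rw [hy]; ring)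
      exact ⟨w, by rw [this, Nat.add_sub_cancel]; linear_combination X ^ j * hw⟩
    choose c hc using k1
    exact Nat.card_le_card_of_injective c fun x y e => Subtype.ext (by rw [hc, hc, e])
  · rw [Nat.card_congr E, Nat.card_pi]; simp

end ps

end Vale.Agent.P004F.Alg
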