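import Vale.Agent.P004F.Alg.Key

/-! The saturated lattice of points and the bound at a transverse vertex. -/

namespace Vale.Agent.P004F.Alg
open Submodule Set Matrix Function Module

variable {O X J : Type} [CommRing O] [AddCommGroup X] [Module O X] [Fintype J] [DecidableEq J]

/-- the killed coordinates for the choice `c` -/
def ch {A : Type} (c : J → Bool) (f s : J → A) (j : J) : A := if c j then f j else s j

omit [Fintype J] in
theorem ch_not {A : Type} (c : J → Bool) (f s : J → A) (j : J) :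
    ch (update c j (!c j)) f s = update (ch c f s) j (ch c s f j) := by
  ext k
  by_cases e : k = j
  · subst e; cases h : c k <;> simp [ch, h]
  · simp [ch, update_of_ne e]

omit [Fintype J] [DecidableEq J] in
theorem ch_map {A B : Type} (φ : A → B) (c : J → Bool) (f s : J → A) (j : J) :
    φ (ch c f s j) = ch c (φ ∘ f) (φ ∘ s) j := by
  unfold ch; split <;> rfl

/-- universal isotropy on `t = 0` -/
def Iso (O : Type) {X J : Type} [CommRing O] [AddCommGroup X] [Module O X] [Fintype J]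
    (t : X) (f s : J → X) : Prop :=
  ∀ (M : Type) [AddCommGroup M] [Module O M] (β : X →ₗ[O] X →ₗ[O] M), β t = 0 → (∀ x, β x t = 0) →
    ∑ j, (β (f j) (s j) + β (s j) (f j)) = 0

omit [DecidableEq J] in
theorem Iso.ch {t : X} {f s : J → X} (h : Iso O t f s) (c : J → Bool) :
    Iso O t (ch c f s) (ch c s f) := fun M _ _ β h1 h2 => by
  rw [← h M β h1 h2]
  refine Finset.sum_congr rfl fun j _ => ?_
  unfold Alg.ch; split <;> simp [add_comm]

omit [DecidableEq J] in
theorem Iso.pt {t : X} {f s : J → X} (h : Iso O t f s) {g g' : X →ₗ[O] O} (hg : g t = 0)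
    (hg' : g' t = 0) : ∑ j, (g (f j) * g' (s j) + g (s j) * g' (f j)) = 0 := by
  simpa using h O ((LinearMap.mul O O).compl₁₂ g g') (by ext; simp [hg]) (by simp [hg'])

theorem Dt.lift {Y : Type} [AddCommGroup Y] [Module O Y] {N : Submodule O X} {b : O}
    (h : Dt (X ⧸ N) b) (φ : X →ₗ[O] Y) (hφ : Surjective φ) (hN : N ≤ LinearMap.ker φ) : Dt Y b :=
  h.surj (N.liftQ φ hN) fun y => by
    obtain ⟨x, rfl⟩ := hφ y; exact ⟨N.mkQ x, by simp⟩

/-- all coordinates -/
def NN (O : Type) {X J : Type} [CommRing O] [AddCommGroup X] [Module O X] (t : X) (f s : J → X) :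
    Submodule O X := span O (insert t (range f ∪ range s))

omit [Fintype J] [DecidableEq J] in
theorem NN_le {t : X} {f s : J → X} {N : Submodule O X} (h1 : t ∈ N) (h2 : ∀ j, f j ∈ N)
    (h3 : ∀ j, s j ∈ N) : NN O t f s ≤ N := span_le.2 <| by
  rintro _ (rfl | ⟨j, rfl⟩ | ⟨j, rfl⟩)
  exacts [h1, h2 j, h3 j]

theorem finrank_le_of_dt [IsDomain O] [Module.Finite O X] {I : Type} [Fintype I] {x : I → X} {d : O}
    (h : Dt (X ⧸ span O (range x)) d) (hd : d ≠ 0) : finrank O X ≤ Fintype.card I := by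
  have h1 := (span O (range x)).finrank_quotient_add_finrank
  rw [finrank_eq_zero_iff_isTorsion.2 fun z => ⟨⟨d, mem_nonZeroDivisors_of_ne_zero hd⟩,
    h.smul_eq z⟩, zero_add] at h1
  exact h1 ▸ finrank_range_le_card x

/-- the hypotheses without Euler system -/
structure Ok0 (t : X) (f s : J → X) (D b : O) : Prop where
  fin : Module.Finite O X
  rk : Fintype.card J + 1 ≤ finrank O X
  iso : Iso O t f s
  pr : ∃ D', Associated D' D ∧ Pr (X ⧸ span O (insert t (range s))) D'
  nu : Dt (X ⧸ NN O t f s) b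

omit [Fintype J] [DecidableEq J] [AddCommGroup X] in
theorem range_elim (t : X) (s : J → X) : range (fun o : Option J => o.elim t s) = insert t (range s) := by
  ext z; simp [Option.exists, eq_comm]

variable [IsDomain O] [IsPrincipalIdealRing O] {t : X} {f s : J → X} {D b : O}

omit [DecidableEq J] [IsPrincipalIdealRing O] in
theorem Ok0.rank (h : Ok0 t f s D b) (hD : D ≠ 0) : finrank O X = Fintype.card (Option J) := by
  obtain ⟨D', h1, h2⟩ := h.pr
  have := h.fin
  rw [← range_elim] at h2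
  exact (finrank_le_of_dt h2.dt (h1.ne_zero_iff.2 hD)).antisymm (by simpa using h.rk)

omit [DecidableEq J] in
/-- the free quotient of `X / t` -/
theorem Ok0.ex_free (h : Ok0 t f s D b) (hD : D ≠ 0) : ∃ φ : X →ₗ[O] (J → O), Surjective φ ∧ φ t = 0 ∧
    ∀ g : X →ₗ[O] O, g t = 0 → ∃ g' : (J → O) →ₗ[O] O, g = g' ∘ₗ φ := by
  have := h.fin
  obtain ⟨D', h1, h2⟩ := h.pr
  have r1 := (span O {t}).finrank_quotient_add_finrank
  have r2 : finrank O (span O {t}) ≤ 1 := by simpa using finrank_span_le_card (R := O) ({t} : Set X)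
  have r3 : finrank O (X ⧸ span O {t}) ≤ Fintype.card J :=
    finrank_le_of_dt (x := (span O {t}).mkQ ∘ s) (h2.dt.lift ((mkQ _) ∘ₗ (mkQ _))
      ((mkQ_surjective _).comp (mkQ_surjective _)) (span_le.2 <| by
        rintro _ (rfl | ⟨j, rfl⟩)
        · simp [(Quotient.mk_eq_zero _).2 (mem_span_singleton_self _)]
        · exact (Quotient.mk_eq_zero _).2 (subset_span ⟨j, rfl⟩))) (h1.ne_zero_iff.2 hD)
  have r4 : finrank O ((X ⧸ span O {t}) ⧸ torsion O (X ⧸ span O {t})) = Fintype.card J := by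
    have := h.rk
    rw [finrank_quotient_eq_of_le_torsion le_rfl]; omega
  let e := ((finBasisOfFinrankEq O _ r4).reindex (Fintype.equivFin J).symm).equivFun
  refine ⟨e.toLinearMap ∘ₗ mkQ _ ∘ₗ mkQ _, e.surjective.comp ((mkQ_surjective _).comp
    (mkQ_surjective _)), by simp [(Quotient.mk_eq_zero _).2 (mem_span_singleton_self _)],
    fun g hg => ?_⟩
  let g1 := (span O {t}).liftQ g (by simpa [span_le] using hg)
  refine ⟨(torsion O _).liftQ g1 (fun z ⟨a, ha⟩ => ?_) ∘ₗ e.symm.toLinearMap, by ext; simp [g1]⟩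
  have := congrArg g1 ha
  simpa [Submonoid.smul_def, nonZeroDivisors.coe_ne_zero a] using this

/-- the saturated lattice -/
theorem Ok0.lat (h : Ok0 t f s D b) (hD : D ≠ 0) (hb : b ≠ 0) : ∃ f' s' : J → J → O,
    span O (range f' ∪ range s') = ⊤ ∧
    (∀ v : J → O, ∃ g : X →ₗ[O] O, g t = 0 ∧ (∀ j, g (f j) = b * (f' j ⬝ᵥ v)) ∧
      ∀ j, g (s j) = b * (s' j ⬝ᵥ v)) ∧
    (∀ (g : X →ₗ[O] O) (u u' : J → O), g t = 0 → (∀ j, g (f j) = b * u j) → (∀ j, g (s j) = b * u' j) →
      ∃ v : J → O, (∀ j, u j = f' j ⬝ᵥ v) ∧ ∀ j, u' j = s' j ⬝ᵥ v) ∧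
    ∀ c : J → Bool, span O (range (ch c f' s')) = ⊤ →
      (∀ g : X →ₗ[O] O, g t = 0 → (∀ j, g (ch c f s j) = 0) → g = 0) ∧
      ∀ d, Pr (X ⧸ span O (insert t (range (ch c f s)))) d → d ∣ b ^ 2 := by
  obtain ⟨φ, h1, h2, h3⟩ := h.ex_free hD
  set Y := span O (range (φ ∘ f) ∪ range (φ ∘ s))
  have hf : ∀ j, φ (f j) ∈ Y := fun j => subset_span (.inl ⟨j, rfl⟩)
  have hs : ∀ j, φ (s j) ∈ Y := fun j => subset_span (.inr ⟨j, rfl⟩)
  have hq : Dt ((J → O) ⧸ Y) b := h.nu.lift (Y.mkQ ∘ₗ φ) ((mkQ_surjective _).comp h1)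
    (NN_le (by simp [h2]) (by simpa using hf) (by simpa using hs))
  have hbY : ∀ z, b • z ∈ Y := fun z => by
    rw [← Quotient.mk_eq_zero, Quotient.mk_smul]; exact hq.smul_eq _
  have r : finrank O Y = Fintype.card J := by
    have := Y.finrank_quotient_add_finrank
    rw [finrank_eq_zero_iff_isTorsion.2 fun z => ⟨⟨b, mem_nonZeroDivisors_of_ne_zero hb⟩,
      hq.smul_eq z⟩] at this
    simpa using this
  let e0 := (finBasisOfFinrankEq O _ r).reindex (Fintype.equivFin J).symm
  let e := e0.equivFun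
  have hY : ∀ N : Submodule O Y, (∀ j, (⟨_, hf j⟩ : Y) ∈ N) → (∀ j, (⟨_, hs j⟩ : Y) ∈ N) → N = ⊤ :=
    fun N n1 n2 => eq_top_iff.2 fun z _ => by
      have : Y ≤ N.map Y.subtype := span_le.2 <| by
        rintro _ (⟨j, rfl⟩ | ⟨j, rfl⟩)
        exacts [⟨_, n1 j, rfl⟩, ⟨_, n2 j, rfl⟩]
      obtain ⟨w, hw, hw'⟩ := this z.2
      exact (Subtype.ext hw' : w = z) ▸ hw
  refine ⟨fun j => e ⟨_, hf j⟩, fun j => e ⟨_, hs j⟩, ?_, fun v => ?_, fun g u u' g0 g1 g2 => ?_,
    fun c hc => ?_⟩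
  · have := hY ((span O (range (fun j => e ⟨_, hf j⟩) ∪ range fun j => e ⟨_, hs j⟩)).comap
      e.toLinearMap) (fun j => subset_span (.inl ⟨j, rfl⟩)) fun j => subset_span (.inr ⟨j, rfl⟩)
    refine eq_top_iff.2 fun z _ => ?_
    obtain ⟨w, rfl⟩ := e.surjective z
    exact (this ▸ mem_top : w ∈ comap _ _)
  · let μ : (J → O) →ₗ[O] Y := (b • LinearMap.id).codRestrict Y hbY
    have hμ : ∀ z (hz : z ∈ Y), μ z = b • (⟨z, hz⟩ : Y) := fun z hz => rfl
    refine ⟨(dotProductBilin O O).flip v ∘ₗ e.toLinearMap ∘ₗ μ ∘ₗ φ, by simp [h2], fun j => ?_,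
      fun j => ?_⟩
    · simp only [LinearMap.comp_apply, hμ _ (hf j), map_smul]; simp
    · simp only [LinearMap.comp_apply, hμ _ (hs j), map_smul]; simp
  · obtain ⟨g', rfl⟩ := h3 g g0
    have := hY ((span O {b}).comap (g' ∘ₗ Y.subtype))
      (fun j => mem_span_singleton.2 ⟨u j, by simpa [mul_comm] using (g1 j).symm⟩)
      fun j => mem_span_singleton.2 ⟨u' j, by simpa [mul_comm] using (g2 j).symm⟩
    choose v hv using fun j => mem_span_singleton.1 (this ▸ mem_top : e0 j ∈ comap _ _)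
    have key : ∀ z : Y, g' z = b * (e z ⬝ᵥ v) := fun z => by
      conv_lhs => rw [← e0.sum_repr z]
      simp only [AddSubmonoidClass.coe_finsetSum, SetLike.val_smul, map_sum, map_smul, dotProduct,
        Finset.mul_sum]
      refine Finset.sum_congr rfl fun j _ => ?_
      have := hv j
      simp only [LinearMap.comp_apply, subtype_apply, smul_eq_mul] at this
      simp only [← this, e, smul_eq_mul, Basis.equivFun_apply]; ring
    exact ⟨v, fun j => mul_left_cancel₀ hb ((g1 j).symm.trans (key ⟨_, hf j⟩)),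
      fun j => mul_left_cancel₀ hb ((g2 j).symm.trans (key ⟨_, hs j⟩))⟩
  · have hc' : span O (range (φ ∘ ch c f s)) = Y := by
      refine le_antisymm (span_le.2 ?_) fun z hz => ?_
      · rintro _ ⟨j, rfl⟩
        simp only [Function.comp, ch]; split
        exacts [hf j, hs j]
      · have : e ⟨z, hz⟩ ∈ _ := hc ▸ mem_top
        obtain ⟨a, ha⟩ := (mem_span_range_iff_exists_fun O).1 this
        refine (mem_span_range_iff_exists_fun O).2 ⟨a, ?_⟩
        have := congrArg (fun w => (e.symm w : J → O)) ha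
        simp only [map_sum, map_smul, LinearEquiv.symm_apply_apply, AddSubmonoidClass.coe_finsetSum,
          SetLike.val_smul] at this
        rw [← this]
        refine Finset.sum_congr rfl fun j _ => ?_
        simp only [Function.comp, ch]; split <;> simp
    refine ⟨fun g g0 g1 => ?_, fun d hd => ?_⟩
    · obtain ⟨g', rfl⟩ := h3 g g0
      have : Y ≤ LinearMap.ker g' := hc' ▸ span_le.2 (by rintro _ ⟨j, rfl⟩; exact g1 j)
      ext z
      simpa [hb] using this (hbY (φ z))
    have d1 : (Pi.basisFun O J).det (φ ∘ ch c f s) ∣ b :=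
      (pr_free _ _).dvd (hc' ▸ hq)
    set P := span O (insert t (range (ch c f s)))
    have pt : P.mkQ t = 0 := (Quotient.mk_eq_zero _).2 (subset_span (.inl rfl))
    have px : ∀ j, P.mkQ (ch c f s j) = 0 := fun j =>
      (Quotient.mk_eq_zero _).2 (subset_span (.inr ⟨j, rfl⟩))
    set N := span O (range (P.mkQ ∘ ch c s f))
    have d2 : Dt N ((Pi.basisFun O J).det (φ ∘ ch c f s)) := by
      refine ⟨J, inferInstance, inferInstance, fun j => ⟨_, subset_span ⟨j, rfl⟩⟩,
        (Pi.basisFun O J).toMatrix (φ ∘ ch c f s), ?_, fun i => Subtype.ext ?_,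
        (Basis.det_apply ..).symm⟩
      · exact (span_range_subtype_eq_top_iff N _).2 rfl
      · have := h.iso.ch c _ ((LinearMap.lsmul O (X ⧸ P)).compl₁₂ (LinearMap.proj i ∘ₗ φ) P.mkQ)
          (by ext; simp [h2]) (by simp [-mkQ_apply, pt])
        simpa [-mkQ_apply, px, Basis.toMatrix_apply] using this
    have d3 : Dt ((X ⧸ P) ⧸ N) b := by
      have : ∀ j, N.mkQ (P.mkQ (f j)) = 0 ∧ N.mkQ (P.mkQ (s j)) = 0 := fun j => by
        have a1 : N.mkQ (P.mkQ (ch c f s j)) = 0 := by rw [px, map_zero]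
        have a2 : N.mkQ (P.mkQ (ch c s f j)) = 0 := (Quotient.mk_eq_zero _).2 (subset_span ⟨j, rfl⟩)
        unfold ch at a1 a2; split at a1 <;> simp_all [-mkQ_apply]
      exact h.nu.lift (N.mkQ ∘ₗ P.mkQ) ((mkQ_surjective _).comp (mkQ_surjective _))
        (NN_le (by simp [-mkQ_apply, pt]) (fun j => (this j).1) fun j => (this j).2)
    exact (hd.dvd (d2.mul N d3)).trans (sq b ▸ mul_dvd_mul_right d1 b)

end Vale.Agent.P004F.Alg
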