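import Vale.Agent.P004F.Alg.Lat

/-! The residual Lagrangian. -/

namespace Vale.Agent.P004F.Alg
open Submodule Set Matrix Function Module IsLocalRing

theorem lag {k J : Type} [Field k] [Fintype J] [DecidableEq J] (U : Submodule k ((J → k) × (J → k)))
    (hU : ∀ w ∈ U, ∀ w' ∈ U, w.1 ⬝ᵥ w'.2 + w.2 ⬝ᵥ w'.1 = 0) (hd : finrank k U = Fintype.card J)
    (w : (J → k) × (J → k)) (hw : ∀ w' ∈ U, w'.1 ⬝ᵥ w.2 + w'.2 ⬝ᵥ w.1 = 0) : w ∈ U := by
  let B : LinearMap.BilinForm k ((J → k) × (J → k)) := LinearMap.mk₂ k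
    (fun w w' => w.1 ⬝ᵥ w'.2 + w.2 ⬝ᵥ w'.1) (by intros; simp; ring) (by intros; simp; ring)
    (by intros; simp; ring) (by intros; simp; ring)
  have h0 : B.ker = ⊥ := eq_bot_iff.2 fun z hz => by
    have h : ∀ y, B z y = 0 := fun y => by rw [LinearMap.mem_ker.1 hz]; rfl
    ext j
    · simpa [B] using h (0, Pi.single j 1)
    · simpa [B] using h (Pi.single j 1, 0)
  have h1 := B.finrank_add_finrank_orthogonal' U
  rw [h0, inf_bot_eq, finrank_bot, hd] at h1
  simp only [finrank_prod, finrank_fintype_fun_eq_card] at h1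
  have h2 : U = B.orthogonal U := eq_of_le_of_finrank_le (fun z hz y hy => hU y hy z hz) (by omega)
  rw [h2]; exact hw

variable {O X J : Type} [CommRing O] [IsDomain O] [IsDiscreteValuationRing O] [AddCommGroup X]
  [Module O X] [Fintype J] [DecidableEq J]

/-- reductions of the saturated points -/
def Gb (t : X) (f s : J → X) (b : O) :
    Submodule (ResidueField O) ((J → ResidueField O) × (J → ResidueField O)) where
  carrier := {w | ∃ (g : X →ₗ[O] O) (u v : J → O), g t = 0 ∧ (∀ j, g (f j) = b * u j) ∧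
    (∀ j, g (s j) = b * v j) ∧ w = (residue O ∘ u, residue O ∘ v)}
  zero_mem' := ⟨0, 0, 0, rfl, by simp, by simp, by ext <;> simp⟩
  add_mem' := by
    rintro _ _ ⟨g, u, v, h1, h2, h3, rfl⟩ ⟨g', u', v', k1, k2, k3, rfl⟩
    exact ⟨g + g', u + u', v + v', by simp [h1, k1], by simp [h2, k2, mul_add],
      by simp [h3, k3, mul_add], by ext <;> simp⟩
  smul_mem' := by
    rintro a _ ⟨g, u, v, h1, h2, h3, rfl⟩
    obtain ⟨a, rfl⟩ := residue_surjective a
    exact ⟨a • g, a • u, a • v, by simp [h1], by simp [h2, mul_left_comm],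
      by simp [h3, mul_left_comm], by ext <;> simp⟩

/-- the coordinate Lagrangian -/
def Lb (k : Type) [Field k] (c : J → Bool) : Submodule k ((J → k) × (J → k)) where
  carrier := {w | ∀ j, ch c w.1 w.2 j = 0}
  zero_mem' := fun j => by simp [ch]
  add_mem' := fun {a b} ha hb j => by
    have := ha j; have := hb j; unfold ch at *; split <;> simp_all
  smul_mem' := fun a b hb j => by
    have := hb j; unfold ch at *; split <;> simp_all

omit [DecidableEq J] in
theorem dot_ch {k : Type} [Field k] (c : J → Bool) (w w' : (J → k) × (J → k)) :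
    w.1 ⬝ᵥ w'.2 + w.2 ⬝ᵥ w'.1 =
      ∑ j, (ch c w.1 w.2 j * ch c w'.2 w'.1 j + ch c w.2 w.1 j * ch c w'.1 w'.2 j) := by
  simp only [dotProduct, ← Finset.sum_add_distrib]
  refine Finset.sum_congr rfl fun j _ => ?_
  unfold ch; split <;> simp [add_comm]

variable {t : X} {f s : J → X} {D b : O}

omit [DecidableEq J] in
theorem Iso.gb (h : Iso O t f s) (hb : b ≠ 0) : ∀ w ∈ Gb t f s b, ∀ w' ∈ Gb t f s b,
    w.1 ⬝ᵥ w'.2 + w.2 ⬝ᵥ w'.1 = 0 := by
  rintro _ ⟨g, u, v, h1, h2, h3, rfl⟩ _ ⟨g', u', v', k1, k2, k3, rfl⟩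
  have := h.pt h1 k1
  have h4 : b ^ 2 * ∑ j, (u j * v' j + v j * u' j) = 0 := by
    rw [← this, Finset.mul_sum]
    exact Finset.sum_congr rfl fun j _ => by rw [h2, h3, k2, k3]; ring
  have := congrArg (residue O) ((mul_eq_zero.1 h4).resolve_left (pow_ne_zero 2 hb))
  simpa [dotProduct, Finset.sum_add_distrib] using this

theorem Ok0.res (h : Ok0 t f s D b) (hD : D ≠ 0) (hb : b ≠ 0) :
    finrank (ResidueField O) (Gb t f s b) = Fintype.card J ∧
    ∀ c : J → Bool, Gb t f s b ⊓ Lb _ c = ⊥ →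
      (∀ g : X →ₗ[O] O, g t = 0 → (∀ j, g (ch c f s j) = 0) → g = 0) ∧
      ∀ d, Pr (X ⧸ span O (insert t (range (ch c f s)))) d → d ∣ b ^ 2 := by
  obtain ⟨f', s', h1, h2, h3, h4⟩ := h.lat hD hb
  let R := ((of f').map (residue O)).mulVecLin.prod ((of s').map (residue O)).mulVecLin
  have hR : ∀ v : J → O, R (residue O ∘ v) =
      (residue O ∘ fun j => f' j ⬝ᵥ v, residue O ∘ fun j => s' j ⬝ᵥ v) := fun v => by
    ext j <;> simp [R, mulVec, dotProduct]
  have hl : ∀ v : J → ResidueField O, ∃ v' : J → O, residue O ∘ v' = v := fun v =>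
    ⟨fun j => (residue_surjective (v j)).choose, funext fun j => (residue_surjective (v j)).choose_spec⟩
  have hG : Gb t f s b = LinearMap.range R := by
    ext w
    constructor
    · rintro ⟨g, u, u', k1, k2, k3, rfl⟩
      obtain ⟨v, e1, e2⟩ := h3 g u u' k1 k2 k3
      exact ⟨residue O ∘ v, by rw [hR, funext e1, funext e2]⟩
    · rintro ⟨v, rfl⟩
      obtain ⟨v, rfl⟩ := hl v
      obtain ⟨g, k1, k2, k3⟩ := h2 v
      exact ⟨g, _, _, k1, k2, k3, hR v⟩
  have hi : ∀ v, R v = 0 → v = 0 := fun v hv => by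
    obtain ⟨v, rfl⟩ := hl v
    rw [hR, Prod.mk_eq_zero] at hv
    have : (⊤ : Submodule O (J → O)) ≤ Submodule.comap (M₂ := O) ((dotProductBilin O O).flip v)
        (maximalIdeal O) := by
      rw [← h1, span_le]
      rintro _ (⟨j, rfl⟩ | ⟨j, rfl⟩)
      · exact (residue_eq_zero_iff _).1 (congrFun hv.1 j)
      · exact (residue_eq_zero_iff _).1 (congrFun hv.2 j)
    ext j
    simpa [residue_eq_zero_iff] using this (mem_top (x := Pi.single j 1))
  refine ⟨by rw [hG, LinearMap.finrank_range_of_inj ((injective_iff_map_eq_zero R).2 hi)]; simp,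
    fun c hc => h4 c ?_⟩
  refine ((Pi.basisFun O J).is_basis_iff_det.2 ?_).2
  by_contra hu
  have : ((of (ch c f' s')).map (residue O)).det = 0 := by
    rw [← RingHom.mapMatrix_apply, ← RingHom.map_det, residue_eq_zero_iff, ← det_transpose]
    exact hu
  obtain ⟨v, hv, e⟩ := exists_mulVec_eq_zero_iff.2 this
  refine hv (hi v ((eq_bot_iff.1 hc) ⟨hG ▸ ⟨v, rfl⟩, fun j => ?_⟩))
  have := congrFun e j
  unfold ch at this ⊢
  split <;> simp_all [R, mulVec, dotProduct]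

theorem one_swap {k : Type} [Field k] {U : Submodule k ((J → k) × (J → k))}
    (hU : ∀ w ∈ U, ∀ w' ∈ U, w.1 ⬝ᵥ w'.2 + w.2 ⬝ᵥ w'.1 = 0) {c : J → Bool}
    (h : finrank k ↥(U ⊓ Lb k c) = 1) : ∃ j, U ⊓ Lb k (update c j (!c j)) = ⊥ := by
  obtain ⟨⟨w, w1, w2⟩, hw, h⟩ := finrank_eq_one_iff'.1 h
  obtain ⟨j, hj⟩ : ∃ j, ch c w.2 w.1 j ≠ 0 := by
    by_contra! h
    refine hw (Subtype.ext ?_)
    ext j <;> have := h j <;> have := w2 j <;> unfold ch at * <;> split at this <;> simp_all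
  refine ⟨j, eq_bot_iff.2 fun z ⟨z1, z2⟩ => ?_⟩
  have z3 : ∀ i, update (ch c z.1 z.2) j (ch c z.2 z.1 j) i = 0 := fun i => ch_not c z.1 z.2 j ▸ z2 i
  have z4 : ∀ i, i ≠ j → ch c z.1 z.2 i = 0 := fun i e => by simpa [update_of_ne e] using z3 i
  have := hU z z1 w w1
  rw [dot_ch c, Finset.sum_eq_single j (fun i _ e => by simp [z4 i e, w2 i]) (by simp), w2 j] at this
  obtain ⟨a, ha⟩ := h ⟨z, z1, fun i => by
    by_cases e : i = j
    · subst e; simpa [hj] using this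
    · exact z4 i e⟩
  obtain rfl : a • w = z := congrArg Subtype.val ha
  have := z3 j
  rw [update_self] at this
  have : a = 0 := by
    have e : ch c (a • w).2 (a • w).1 j = a * ch c w.2 w.1 j := by unfold ch; split <;> rfl
    exact (mul_eq_zero.1 (e ▸ this)).resolve_right hj
  simp [this]

variable {X' J' : Type} [AddCommGroup X'] [Module O X'] [Fintype J'] [DecidableEq J']
  {t' : X'} {f' s' : J' → X'}

/-- one more prime -/
structure Ex0 (t : X) (f s : J → X) (t' : X') (f' s' : J' → X') (E : J ⊕ Fin 2 ≃ J')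
    (π : X' →ₗ[O] X) : Prop where
  t : π t' = t
  f : ∀ j, π (f' (E (.inl j))) = f j
  s : ∀ j, π (s' (E (.inl j))) = s j
  z : ∀ i, π (s' (E (.inr i))) = 0
  int : ∀ (a : O) (h : X' →ₗ[O] O), h t' = 0 → (∀ j, a ∣ h (f' (E (.inl j)))) → (∀ j, a ∣ h (s' j)) →
    ∀ i, a ∣ h (f' (E (.inr i)))

omit [IsDiscreteValuationRing O] [DecidableEq J] [DecidableEq J'] [Fintype J] [Fintype J'] in
theorem Ex0.pt {E : J ⊕ Fin 2 ≃ J'} {π : X' →ₗ[O] X} (h : Ex0 t f s t' f' s' E π) (hb : b ≠ 0)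
    {g : X →ₗ[O] O} {u v : J → O} (h1 : g t = 0) (h2 : ∀ j, g (f j) = b * u j)
    (h3 : ∀ j, g (s j) = b * v j) : ∃ u' v' : J' → O, (∀ j, g (π (f' j)) = b * u' j) ∧
      (∀ j, g (π (s' j)) = b * v' j) ∧ (∀ j, u' (E (.inl j)) = u j) ∧ (∀ j, v' (E (.inl j)) = v j) ∧
      ∀ i, v' (E (.inr i)) = 0 := by
  have a2 : ∀ j, b ∣ g (π (s' j)) := fun j => by
    obtain ⟨j | j, rfl⟩ := E.surjective j <;> simp [h.s, h.z, h3]
  have a1 : ∀ j, b ∣ g (π (f' j)) := fun j => by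
    obtain ⟨j | j, rfl⟩ := E.surjective j
    · simp [h.f, h2]
    · exact h.int b (g ∘ₗ π) (by simp [h.t, h1]) (by simp [h.f, h2]) a2 j
  choose u' hu using a1
  choose v' hv using a2
  exact ⟨u', v', hu, hv, fun j => mul_left_cancel₀ hb (by rw [← hu, h.f, h2]),
    fun j => mul_left_cancel₀ hb (by rw [← hv, h.s, h3]),
    fun j => mul_left_cancel₀ hb (by rw [← hv, h.z]; simp)⟩

omit [DecidableEq J'] in
theorem Ex0.drop {E : J ⊕ Fin 2 ≃ J'} {π : X' →ₗ[O] X} (h : Ex0 t f s t' f' s' E π) (hb : b ≠ 0)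
    (i1 : Iso O t f s) (i2 : Iso O t' f' s')
    (hd : finrank (ResidueField O) (Gb t f s b) = Fintype.card J) {ϖ : O} (hϖ : Irreducible ϖ)
    {c : J → Bool} {c' : J' → Bool} (c1 : ∀ j, c' (E (.inl j)) = c j) (c2 : ∀ i, c' (E (.inr i)) = true)
    (g : Fin 2 → X →ₗ[O] O) (u v : Fin 2 → J → O) (g1 : ∀ a, g a t = 0)
    (g2 : ∀ a j, g a (f j) = b * u a j) (g3 : ∀ a j, g a (s j) = b * v a j)
    (g4 : ∀ a, (residue O ∘ u a, residue O ∘ v a) ∈ Lb _ c)
    (g5 : ¬ b ^ 2 * ϖ ∣ (of fun a i => g a (π (f' (E (.inr i))))).det) :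
    finrank (ResidueField O) ↥(Gb t' f' s' b ⊓ Lb _ c') <
      finrank (ResidueField O) ↥(Gb t f s b ⊓ Lb _ c) := by
  have hr : ∀ x : O, residue O x = 0 ↔ ϖ ∣ x := fun x => by
    rw [residue_eq_zero_iff, hϖ.maximalIdeal_eq, Ideal.mem_span_singleton]
  choose u' v' k1 k2 k3 k4 k5 using fun a => h.pt hb (g1 a) (g2 a) (g3 a)
  have dz : (of fun a i => residue O (u' a (E (.inr i)))).det ≠ 0 := fun e => g5 <| by
    simp only [det_fin_two, of_apply, ← map_mul, ← map_sub, hr] at e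
    simp only [det_fin_two, of_apply, k1]
    obtain ⟨y, hy⟩ := e
    exact ⟨y, by linear_combination b ^ 2 * hy⟩
  let r := (LinearMap.funLeft (ResidueField O) (ResidueField O) fun j : J => E (.inl j)).prodMap
    (LinearMap.funLeft (ResidueField O) (ResidueField O) fun j : J => E (.inl j))
  have spl : ∀ w w' : (J' → ResidueField O) × (J' → ResidueField O),
      w.1 ⬝ᵥ w'.2 + w.2 ⬝ᵥ w'.1 = ((r w).1 ⬝ᵥ (r w').2 + (r w).2 ⬝ᵥ (r w').1) +
        ∑ i, (w.1 (E (.inr i)) * w'.2 (E (.inr i)) + w.2 (E (.inr i)) * w'.1 (E (.inr i))) :=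
    fun w w' => by
      simp only [dotProduct, ← E.sum_comp, Fintype.sum_sum_type, Finset.sum_add_distrib, r,
        LinearMap.prodMap_apply, LinearMap.funLeft_apply]
      ring
  have rL : ∀ w ∈ Lb (ResidueField O) c', r w ∈ Lb _ c := fun w hw j => by
    have := hw (E (.inl j))
    unfold ch at this ⊢
    rwa [c1] at this
  have n1 : ∀ w ∈ Lb (ResidueField O) c', ∀ i, w.1 (E (.inr i)) = 0 := fun w hw i => by
    simpa [ch, c2] using hw (E (.inr i))
  have n2 : ∀ w ∈ Gb t' f' s' b ⊓ Lb _ c', ∀ i, w.2 (E (.inr i)) = 0 := fun w hw => by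
    refine congrFun (eq_zero_of_mulVec_eq_zero dz (funext fun a => ?_))
    have := i2.gb hb w hw.1 _ ⟨g a ∘ₗ π, u' a, v' a, by simp [h.t, g1], k1 a, k2 a, rfl⟩
    have e : r (residue O ∘ u' a, residue O ∘ v' a) = (residue O ∘ u a, residue O ∘ v a) := by
      ext j <;> simp [r, k3, k4]
    rw [spl, e, dot_ch c, Finset.sum_eq_zero fun j _ => by rw [rL w hw.2 j, g4 a j]; simp] at this
    simpa [n1 w hw.2, mulVec, dotProduct, mul_comm] using this
  have rG : ∀ w ∈ Gb t' f' s' b ⊓ Lb _ c', r w ∈ Gb t f s b ⊓ Lb _ c := fun w hw => by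
    refine ⟨lag _ (i1.gb hb) hd _ ?_, rL w hw.2⟩
    rintro _ ⟨g, u, v, h1, h2, h3, rfl⟩
    obtain ⟨u', v', k1, k2, k3, k4, k5⟩ := h.pt hb h1 h2 h3
    have := i2.gb hb _ ⟨g ∘ₗ π, u', v', by simp [h.t, h1], k1, k2, rfl⟩ w hw.1
    have e : r (residue O ∘ u', residue O ∘ v') = (residue O ∘ u, residue O ∘ v) := by
      ext j <;> simp [r, k3, k4]
    rw [spl, e] at this
    simpa [n1 w hw.2, n2 w hw] using this
  have hi : Injective (r.restrict rG) := (injective_iff_map_eq_zero _).2 fun w hw => by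
    have hw' : r w = 0 := congrArg Subtype.val hw
    ext j <;> obtain ⟨j | j, rfl⟩ := E.surjective j
    exacts [congrFun (congrArg Prod.fst hw') j, n1 _ w.2.2 j, congrFun (congrArg Prod.snd hw') j,
      n2 _ w.2 j]
  rw [← LinearMap.finrank_range_of_inj hi]
  refine finrank_lt fun e => dz ?_
  obtain ⟨⟨_, ⟨H, U, V, H1, H2, H3, rfl⟩, hw⟩, e'⟩ := (e ▸ mem_top :
    (⟨_, ⟨g 0, u 0, v 0, g1 0, g2 0, g3 0, rfl⟩, g4 0⟩ : ↥(Gb t f s b ⊓ Lb _ c)) ∈ LinearMap.range _)
  have e'' : r (residue O ∘ U, residue O ∘ V) = (residue O ∘ u 0, residue O ∘ v 0) :=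
    congrArg Subtype.val e'
  have q : ∀ i, residue O (u' 0 (E (.inr i))) = 0 := fun i => by
    have := h.int (b * ϖ) (H - g 0 ∘ₗ π) (by simp [H1, h.t, g1]) (fun j => by
      simp only [LinearMap.sub_apply, LinearMap.comp_apply, H2, k1, k3, ← mul_sub]
      exact mul_dvd_mul_left b ((hr _).1 (by
        rw [map_sub, sub_eq_zero]; exact congrFun (congrArg Prod.fst e'') j))) (fun j => by
      simp only [LinearMap.sub_apply, LinearMap.comp_apply, H3, k2, ← mul_sub]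
      refine mul_dvd_mul_left b ((hr _).1 ?_)
      obtain ⟨j | j, rfl⟩ := E.surjective j
      · rw [map_sub, sub_eq_zero, k4]; exact congrFun (congrArg Prod.snd e'') j
      · rw [k5, sub_zero]; exact n2 _ ⟨⟨H, U, V, H1, H2, H3, rfl⟩, hw⟩ j) i
    simp only [LinearMap.sub_apply, LinearMap.comp_apply, H2, k1, ← mul_sub] at this
    have := (hr _).2 ((mul_dvd_mul_iff_left hb).1 this)
    rw [map_sub, sub_eq_zero] at this
    exact this ▸ n1 _ hw i
  simp [det_fin_two, q]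

end Vale.Agent.P004F.Alg
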